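import Mathlib.Geometry.Manifold.IsManifold.Basic
import Mathlib.Geometry.Manifold.ContMDiff.Atlas
import Mathlib.Geometry.Manifold.ContMDiff.Constructions
import Mathlib.Geometry.Manifold.ContMDiff.NormedSpace
import Mathlib.Analysis.SpecialFunctions.Trigonometric.Basic
import Mathlib.Geometry.Manifold.LocalDiffeomorph
import Mathlib.Geometry.Manifold.Complex
import Mathlib.Analysis.Calculus.FDeriv.Basic
import Mathlib.Analysis.Analytic.Basic
import Mathlib.Analysis.SpecialFunctions.Pow.NNReal
import Mathlib.MeasureTheory.Measure.Lebesgue.Complex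
import Mathlib.MeasureTheory.Integral.Lebesgue.Basic

/-!
# Sections of powers of the anticanonical bundle, in charts
-/

open scoped Manifold Topology ContDiff
open Set MeasureTheory

namespace Vale.Agent.P299

variable {E : Type*} [NormedAddCommGroup E] [NormedSpace ℂ E]

/-- The complex Jacobian determinant, at the point `x`, of a map `g : M → N` between complex
manifolds modelled on `E`, read in the chart `e` of `M` and the chart `e'` of `N`. -/
noncomputable def jac {M N : Type*} [TopologicalSpace M] [TopologicalSpace N] (g : M → N)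
    (e : OpenPartialHomeomorph M E) (e' : OpenPartialHomeomorph N E) (x : M) : ℂ :=
  (fderiv ℂ (e' ∘ g ∘ e.symm) (e x)).det

/-- A holomorphic section `s` of `-mK_M`, the `m`-th power of the anticanonical bundle of the
complex manifold `M` with model space `E`.  In a chart `e` with coordinates `z_1, …, z_n` it is
`s = coeff e · (∂/∂z_1 ∧ … ∧ ∂/∂z_n)^m`, where the coefficient `coeff e` is a holomorphic function
on the source of `e` (it is written as a function of the point of `M`). -/
structure AntiSection (E : Type*) [NormedAddCommGroup E] [NormedSpace ℂ E]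
    (M : Type*) [TopologicalSpace M] [ChartedSpace E M] (m : ℕ) where
  /-- the coefficient in each chart -/
  coeff : OpenPartialHomeomorph M E → M → ℂ
  /-- the coefficients are holomorphic -/
  holo : ∀ e ∈ atlas E M, AnalyticOnNhd ℂ (coeff e ∘ e.symm) e.target
  /-- the rule for a change of charts -/
  compat : ∀ e ∈ atlas E M, ∀ e' ∈ atlas E M, ∀ x ∈ e.source ∩ e'.source,
    coeff e' x = jac id e e' x ^ m * coeff e x

/-- The section is not identically zero. -/
def AntiSection.Nonzero {M : Type*} [TopologicalSpace M] [ChartedSpace E M] {m : ℕ}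
    (s : AntiSection E M m) : Prop :=
  ∃ e ∈ atlas E M, ∃ x ∈ e.source, s.coeff e x ≠ 0

/-- `g^* s = c • s` : the pull back of the section `s` of `-mK_M` by the (locally biholomorphic)
map `g : M → M` is `c` times `s`. -/
def AntiSection.IsEigen {M : Type*} [TopologicalSpace M] [ChartedSpace E M] {m : ℕ}
    (s : AntiSection E M m) (g : M → M) (c : ℂ) : Prop :=
  ∀ e ∈ atlas E M, ∀ e' ∈ atlas E M, ∀ x ∈ e.source, g x ∈ e'.source →
    s.coeff e' (g x) = c * jac g e e' x ^ m * s.coeff e x

/-- A holomorphic action of the algebraic torus `(ℂ^*)^r = ℂ^r / 2πi ℤ^r` on the complex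
manifold `M`. -/
structure TorusAction (r : ℕ) (E : Type*) [NormedAddCommGroup E] [NormedSpace ℂ E]
    (M : Type*) [TopologicalSpace M] [ChartedSpace E M] where
  /-- the action of the class of `w ∈ ℂ^r`, that is of `(exp w_1, …, exp w_r)` -/
  act : (Fin r → ℂ) → M → M
  /-- it is holomorphic in both variables -/
  holo : ContMDiff (𝓘(ℂ, Fin r → ℂ).prod 𝓘(ℂ, E)) 𝓘(ℂ, E) ω
    (fun p : (Fin r → ℂ) × M => act p.1 p.2)
  act_zero : ∀ x, act 0 x = x
  act_add : ∀ v w x, act (v + w) x = act v (act w x)
  act_period : ∀ (k : Fin r → ℤ) (x : M), act (fun j => 2 * Real.pi * Complex.I * k j) x = x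

/-- A finite family of sections `s_1, …, s_N` of `-mK_M` has log canonical singularities:
`(|s_1|^2 + … + |s_N|^2)^(-c/m)` is locally integrable for all `c < 1`.  (The power is taken in
`[0, ∞]`, with value `∞` at the common zeros.) -/
def IsLC {n : ℕ} {M : Type*} [TopologicalSpace M] [ChartedSpace (Fin n → ℂ) M] {m : ℕ}
    {ι : Type*} [Fintype ι] (s : ι → AntiSection (Fin n → ℂ) M m) : Prop :=
  ∀ c : ℝ, 0 < c → c < 1 → ∀ e ∈ atlas (Fin n → ℂ) M, ∀ K : Set (Fin n → ℂ),
    IsCompact K → K ⊆ e.target →
    ∫⁻ z in K, (∑ i, ‖(s i).coeff e (e.symm z)‖ₑ ^ 2) ^ (-(c / m)) < ⊤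

end Vale.Agent.P299
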