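import Vale.Agent.P299.Weights

/-!
# Components of a section under a one-parameter group and under the torus
-/

open scoped Manifold Topology ContDiff
open Set Filter

set_option linter.unusedSectionVars false

namespace Vale.Agent.P299

open Meas

variable {n r : ℕ} {F : Type*} [TopologicalSpace F] [ChartedSpace (Cn n) F]
  [IsManifold 𝓘(ℂ, Cn n) ω F]

namespace TorusAction

variable (T : TorusAction r (Cn n) F) {m : ℕ}

theorem pull_sum_coeff (w : Cn r) {ι : Type*} (A : Finset ι) (c : ι → ℂ)
    (s : ι → AntiSection (Cn n) F m) {e : OpenPartialHomeomorph F (Cn n)}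
    (he : e ∈ atlas (Cn n) F) {x : F} (hx : x ∈ e.source) :
    (T.pull w (AntiSection.sum A fun i => (s i).smul (c i))).coeff e x
      = ∑ i ∈ A, c i * (T.pull w (s i)).coeff e x := by
  have h1 := chart_mem_atlas (Cn n) (T.act w x)
  have h2 := mem_chart_source (Cn n) (T.act w x)
  rw [T.pull_coeff w _ he h1 hx h2]
  change (∑ i ∈ A, c i * (s i).coeff _ _) * _ = _
  rw [Finset.sum_mul]
  refine Finset.sum_congr rfl fun i _ => ?_
  rw [T.pull_coeff w (s i) he h1 hx h2]
  ring

theorem isEigen_iff (w : Cn r) (s : AntiSection (Cn n) F m) (c : ℂ) :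
    s.IsEigen (T.act w) c ↔ (T.pull w s).Eqv (s.smul c) :=
  AntiSection.isEigen_iff_pull (T.locBihol w) s c

theorem differentiable_pull (j : Fin r) (s : AntiSection (Cn n) F m)
    {e : OpenPartialHomeomorph F (Cn n)} (he : e ∈ atlas (Cn n) F) {x : F} (hx : x ∈ e.source) :
    Differentiable ℂ (fun u : ℂ => (T.pull (Pi.single j u) s).coeff e x) := by
  intro u
  have ha := T.analyticAt_pull s he (Pi.single j u) (e.map_source hx)
  have hb : DifferentiableAt ℂ (fun u : ℂ => ((Pi.single j u : Cn r), e x)) u := by
    apply DifferentiableAt.prodMk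
    · rw [differentiableAt_pi]
      intro i
      by_cases h : i = j
      · subst h; simp
      · simp [h]
    · exact differentiableAt_const _
  have hc := DifferentiableAt.comp (f := fun u : ℂ => ((Pi.single j u : Cn r), e x)) u
    ha.differentiableAt hb
  refine hc.congr_of_eventuallyEq ?_
  filter_upwards with v
  simp [e.left_inv hx]

variable [CompactSpace F] [T2Space F]

/-- decomposition of a section into components for one factor of the torus -/
theorem exists_components (j : Fin r) (m : ℕ) : ∃ K : ℕ, ∀ s : AntiSection (Cn n) F m,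
    ∃ t : ℕ → AntiSection (Cn n) F m,
      (∀ i ∈ Finset.range (2 * K + 1), ∀ v : ℂ,
        (t i).IsEigen (T.act (Pi.single j v)) (Complex.exp (((i : ℤ) - K : ℤ) * v))) ∧
      s.Eqv (AntiSection.sum (Finset.range (2 * K + 1)) t) ∧
      (∀ (w : Cn r) (c : ℂ), s.IsEigen (T.act w) c → ∀ i, (t i).IsEigen (T.act w) c) := by
  rcases isEmpty_or_nonempty F with hF | hF
  · refine ⟨0, fun s => ⟨fun _ => s, ?_, ?_, ?_⟩⟩
    · intro i _ v e _ e' _ x; exact (hF.false x).elim
    · intro e _ x; exact (hF.false x).elim
    · intro w c h i; exact h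
  borelize F
  have : IsManifold 𝓘(ℂ, Cn n) 1 F := IsManifold.of_le (m := 1) (n := ω) le_top
  obtain ⟨P⟩ := exists_part (n := n) (F := F)
  obtain ⟨K, hK⟩ := T.growth P j m
  refine ⟨K, fun s => ?_⟩
  obtain ⟨B, hB⟩ := hK s
  set L := 2 * K + 1 with hL
  -- the Laurent expansion at a point
  have hlaurent : ∀ e ∈ atlas (Cn n) F, ∀ x ∈ e.source, ∃ a : ℕ → ℂ, ∀ u,
      (T.pull (Pi.single j u) s).coeff e x
        = ∑ i ∈ Finset.range L, a i * Complex.exp (((i : ℤ) - K : ℤ) * u) := by
    intro e he x hx
    refine laurent_of_growth (T.differentiable_pull j s he hx) ?_ K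
      (‖jac id (P.r x) e x ^ m‖ * B) ?_
    · intro u
      have h := T.pull_single_period j u 1 s e he x hx
      simpa using h
    · intro u
      rw [(T.pull (Pi.single j u) s).compat _ (P.r_mem x) e he x ⟨P.mem_r_source x, hx⟩, norm_mul,
        mul_assoc]
      have h1 := hB u x
      unfold Part.nrm at h1
      gcongr
  let c : ℕ → ℕ → ℂ := fun i l => (L : ℂ)⁻¹ * Complex.exp (-(((i : ℤ) - K : ℤ) * node L l))
  let t : ℕ → AntiSection (Cn n) F m := fun i =>
    AntiSection.sum (Finset.range L) fun l => (T.pull (Pi.single j (node L l)) s).smul (c i l)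
  -- the pull backs of the components
  have hpull : ∀ i ∈ Finset.range L, ∀ e (he : e ∈ atlas (Cn n) F) x (hx : x ∈ e.source)
      (a : ℕ → ℂ), (∀ u, (T.pull (Pi.single j u) s).coeff e x
        = ∑ i ∈ Finset.range L, a i * Complex.exp (((i : ℤ) - K : ℤ) * u)) →
      ∀ v, (T.pull (Pi.single j v) (t i)).coeff e x
        = Complex.exp (((i : ℤ) - K : ℤ) * v) * a i := by
    intro i hi e he x hx a ha v
    rw [T.pull_sum_coeff _ _ _ _ he hx, ← laurent_component K a ha i hi v]
    refine Finset.sum_congr rfl fun l _ => ?_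
    rw [T.pull_pull _ _ s e he x hx, ← Pi.single_add, add_comm (node L l) v]
  have hcoeff : ∀ i ∈ Finset.range L, ∀ e (he : e ∈ atlas (Cn n) F) x (hx : x ∈ e.source)
      (a : ℕ → ℂ), (∀ u, (T.pull (Pi.single j u) s).coeff e x
        = ∑ i ∈ Finset.range L, a i * Complex.exp (((i : ℤ) - K : ℤ) * u)) →
      (t i).coeff e x = a i := by
    intro i hi e he x hx a ha
    have h1 := hpull i hi e he x hx a ha 0
    rw [Pi.single_zero, T.pull_zero_eqv (t i) e he x hx] at h1
    simpa using h1
  refine ⟨t, ?_, ?_, ?_⟩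
  · intro i hi v
    rw [T.isEigen_iff]
    intro e he x hx
    obtain ⟨a, ha⟩ := hlaurent e he x hx
    rw [hpull i hi e he x hx a ha v]
    change _ = _ * (t i).coeff e x
    rw [hcoeff i hi e he x hx a ha]
  · intro e he x hx
    obtain ⟨a, ha⟩ := hlaurent e he x hx
    have h1 := ha 0
    rw [Pi.single_zero, T.pull_zero_eqv s e he x hx] at h1
    rw [h1]
    change _ = ∑ i ∈ Finset.range L, (t i).coeff e x
    refine Finset.sum_congr rfl fun i hi => ?_
    rw [hcoeff i hi e he x hx a ha]
    simp
  · intro w d hd i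
    rw [T.isEigen_iff] at hd ⊢
    intro e he x hx
    rw [T.pull_sum_coeff _ _ _ _ he hx]
    change _ = d * ∑ l ∈ Finset.range L, c i l * (T.pull (Pi.single j (node L l)) s).coeff e x
    rw [Finset.mul_sum]
    refine Finset.sum_congr rfl fun l _ => ?_
    have h1 : (T.pull w (T.pull (Pi.single j (node L l)) s)).coeff e x
        = d * (T.pull (Pi.single j (node L l)) s).coeff e x := by
      have h2 := T.pull_pull w (Pi.single j (node L l)) s e he x hx
      have h3 := T.pull_pull (Pi.single j (node L l)) w s e he x hx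
      have h4 := T.pull_congr (Pi.single j (node L l)) hd e he x hx
      have h5 : (T.pull (Pi.single j (node L l)) (s.smul d)).coeff e x
          = d * (T.pull (Pi.single j (node L l)) s).coeff e x := by
        have h6 := chart_mem_atlas (Cn n) (T.act (Pi.single j (node L l)) x)
        have h7 := mem_chart_source (Cn n) (T.act (Pi.single j (node L l)) x)
        rw [T.pull_coeff _ _ he h6 hx h7, T.pull_coeff _ _ he h6 hx h7]
        change d * _ * _ = _
        ring
      rw [h2, add_comm, ← h3, h4, h5]
    rw [h1]; ring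

/-- decomposition of a section into weight vectors for the torus -/
theorem exists_weights (s : AntiSection (Cn n) F m) : ∃ (ι : Type) (_ : Fintype ι)
    (t : ι → AntiSection (Cn n) F m) (χ : ι → Fin r → ℤ),
    s.Eqv (AntiSection.sum Finset.univ t) ∧
    ∀ a (w : Cn r), (t a).IsEigen (T.act w) (Complex.exp (∑ j, χ a j * w j)) := by
  classical
  -- partial decomposition along a finite set of directions
  have key : ∀ J : Finset (Fin r), ∃ (ι : Type) (_ : Fintype ι)
      (t : ι → AntiSection (Cn n) F m) (χ : ι → Fin r → ℤ),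
      s.Eqv (AntiSection.sum Finset.univ t) ∧
      ∀ a, ∀ j ∈ J, ∀ v : ℂ,
        (t a).IsEigen (T.act (Pi.single j v)) (Complex.exp (χ a j * v)) := by
    intro J
    induction J using Finset.induction_on with
    | empty =>
      refine ⟨Unit, inferInstance, fun _ => s, fun _ _ => 0, ?_, ?_⟩
      · intro e _ x _
        simp [AntiSection.sum]
      · intro a j hj; simp at hj
    | insert j₀ J hj₀ ih =>
      obtain ⟨ι, hι, t, χ, hs, ht⟩ := ih
      obtain ⟨K, hK⟩ := T.exists_components j₀ m
      choose u hu1 hu2 hu3 using fun a => hK (t a)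
      refine ⟨ι × Fin (2 * K + 1), inferInstance, fun p => u p.1 p.2,
        fun p => Function.update (χ p.1) j₀ ((p.2 : ℕ) - K : ℤ), ?_, ?_⟩
      · intro e he x hx
        rw [hs e he x hx]
        change ∑ a, (t a).coeff e x = ∑ p : ι × Fin (2 * K + 1), (u p.1 p.2).coeff e x
        rw [Fintype.sum_prod_type]
        refine Finset.sum_congr rfl fun a _ => ?_
        rw [hu2 a e he x hx]
        change ∑ i ∈ Finset.range (2 * K + 1), (u a i).coeff e x = _
        rw [Finset.sum_range]
      · rintro ⟨a, i⟩ j hj v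
        rcases Finset.mem_insert.1 hj with rfl | hj
        · have h1 := hu1 a i (Finset.mem_range.2 i.2) v
          simpa using h1
        · have hne : j ≠ j₀ := fun h => hj₀ (h ▸ hj)
          have h1 := hu3 a _ _ (ht a j hj v) i
          simpa [Function.update_of_ne hne] using h1
  obtain ⟨ι, hι, t, χ, hs, ht⟩ := key Finset.univ
  refine ⟨ι, hι, t, χ, hs, fun a w => ?_⟩
  -- compose the directions
  have hcomp : ∀ J : Finset (Fin r), (t a).IsEigen (T.act (∑ j ∈ J, Pi.single j (w j)))
      (Complex.exp (∑ j ∈ J, χ a j * w j)) := by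
    intro J
    induction J using Finset.induction_on with
    | empty =>
      rw [Finset.sum_empty, Finset.sum_empty, Complex.exp_zero]
      rw [T.isEigen_iff]
      intro e he x hx
      rw [T.pull_zero_eqv (t a) e he x hx]
      change _ = 1 * (t a).coeff e x
      rw [one_mul]
    | insert j₀ J hj₀ ih =>
      rw [Finset.sum_insert hj₀, Finset.sum_insert hj₀, Complex.exp_add]
      have h1 : T.act (Pi.single j₀ (w j₀) + ∑ j ∈ J, Pi.single j (w j))
          = T.act (Pi.single j₀ (w j₀)) ∘ T.act (∑ j ∈ J, Pi.single j (w j)) := by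
        funext x; exact T.act_add _ _ x
      rw [h1]
      exact ih.comp (ht a j₀ (Finset.mem_univ _) (w j₀)) (T.contMDiff_act _) (T.contMDiff_act _)
  have h2 := hcomp Finset.univ
  have h3 : (∑ j, Pi.single j (w j) : Cn r) = w := Finset.univ_sum_single w
  rwa [h3] at h2

end TorusAction

end Vale.Agent.P299
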