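import Vale.Agent.P299.Sect

/-!
# The identity theorem for sections
-/

open scoped Manifold Topology ContDiff
open Set Filter

namespace Vale.Agent.P299

variable {E : Type*} [NormedAddCommGroup E] [NormedSpace ℂ E]
variable {M : Type*} [TopologicalSpace M] [ChartedSpace E M]

/-- a section of `-mK` on a connected manifold which vanishes near one point vanishes
identically -/
theorem AntiSection.eq_zero_of_eventually [PreconnectedSpace M] {m : ℕ} (s : AntiSection E M m)
    {x₀ : M} (h : ∀ᶠ y in 𝓝 x₀, s.coeff (chartAt E y) y = 0) :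
    ∀ e ∈ atlas E M, ∀ x ∈ e.source, s.coeff e x = 0 := by
  let A : Set M := {x | ∀ᶠ y in 𝓝 x, s.coeff (chartAt E y) y = 0}
  have hopen : IsOpen A := isOpen_setOfPred_eventually_nhds
  have hclosed : IsClosed A := by
    rw [← closure_subset_iff_isClosed]
    intro x hx
    set e := chartAt E x with he
    have hxe : x ∈ e.source := mem_chart_source E x
    have hea : e ∈ atlas E M := chart_mem_atlas E x
    obtain ⟨ε, hε, hball⟩ := Metric.isOpen_iff.1 e.open_target (e x) (e.map_source hxe)
    have hV : e.source ∩ e ⁻¹' (Metric.ball (e x) ε) ∈ 𝓝 x :=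
      inter_mem (e.open_source.mem_nhds hxe)
        ((e.continuousAt hxe).preimage_mem_nhds (Metric.ball_mem_nhds _ hε))
    obtain ⟨a, haV, haA⟩ := mem_closure_iff_nhds.1 hx _ hV
    have hae : a ∈ e.source := haV.1
    have han : AnalyticOnNhd ℂ (s.coeff e ∘ e.symm) (Metric.ball (e x) ε) :=
      fun z hz => s.holo e hea z (hball hz)
    have hcon : IsPreconnected (Metric.ball (e x) ε) := by
      let _ : NormedSpace ℝ E := NormedSpace.complexToReal
      exact (convex_ball (e x) ε).isPreconnected
    have hz : (s.coeff e ∘ e.symm) =ᶠ[𝓝 (e a)] 0 := by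
      have hc : ContinuousAt e.symm (e a) := e.continuousAt_symm (e.map_source hae)
      have h' : ∀ᶠ y in 𝓝 (e.symm (e a)), s.coeff (chartAt E y) y = 0 := by
        rw [e.left_inv hae]; exact haA
      filter_upwards [hc.eventually h', e.open_target.mem_nhds (e.map_source hae)] with w hw hwt
      exact s.coeff_eq_zero (chart_mem_atlas E _) hea (mem_chart_source E _) (e.map_target hwt) hw
    have hzero := han.eqOn_zero_of_preconnected_of_eventuallyEq_zero hcon haV.2 hz
    change ∀ᶠ y in 𝓝 x, s.coeff (chartAt E y) y = 0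
    filter_upwards [hV] with y hy
    have h1 : (s.coeff e ∘ e.symm) (e y) = 0 := hzero hy.2
    have h2 : s.coeff e y = 0 := by simpa [e.left_inv hy.1] using h1
    exact s.coeff_eq_zero hea (chart_mem_atlas E _) hy.1 (mem_chart_source E _) h2
  have huniv : A = univ := IsClopen.eq_univ ⟨hclosed, hopen⟩ ⟨x₀, h⟩
  intro e he x hx
  have hxA : x ∈ A := by rw [huniv]; trivial
  have hxA' : ∀ᶠ y in 𝓝 x, s.coeff (chartAt E y) y = 0 := hxA
  have h1 : s.coeff (chartAt E x) x = 0 :=
    Eventually.self_of_nhds (p := fun y => s.coeff (chartAt E y) y = 0) hxA'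
  exact s.coeff_eq_zero (chart_mem_atlas E _) he (mem_chart_source E _) hx h1

/-- the product of two nonzero sections is nonzero -/
theorem AntiSection.Nonzero.mul [PreconnectedSpace M] {m k : ℕ} {s : AntiSection E M m}
    {t : AntiSection E M k} (hs : s.Nonzero) (ht : t.Nonzero) : (s.mul t).Nonzero := by
  by_contra hcon
  obtain ⟨e, he, x, hx, hn⟩ := hs
  obtain ⟨e', he', x', hx', hn'⟩ := ht
  apply hn'
  -- near `x` the section `s` does not vanish, so `t` vanishes
  have h0 : ∀ e ∈ atlas E M, ∀ x ∈ e.source, s.coeff e x * t.coeff e x = 0 := by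
    intro e he x hx
    by_contra h
    exact hcon ⟨e, he, x, hx, h⟩
  have hcont : ContinuousAt (s.coeff e ∘ e.symm) (e x) := (s.analyticAt_coeff he hx).continuousAt
  have hne : ∀ᶠ z in 𝓝 (e x), (s.coeff e ∘ e.symm) z ≠ 0 := by
    apply hcont.eventually_ne
    simpa [e.left_inv hx] using hn
  have hev : ∀ᶠ y in 𝓝 x, t.coeff (chartAt E y) y = 0 := by
    filter_upwards [(e.continuousAt hx).eventually hne, e.open_source.mem_nhds hx] with y hy hys
    have h1 : s.coeff e y ≠ 0 := by simpa [e.left_inv hys] using hy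
    have h2 := (mul_eq_zero.1 (h0 e he y hys)).resolve_left h1
    exact t.coeff_eq_zero he (chart_mem_atlas E _) hys (mem_chart_source E _) h2
  exact t.eq_zero_of_eventually hev e' he' x' hx'

theorem AntiSection.Nonzero.pow [PreconnectedSpace M] {m : ℕ} {s : AntiSection E M m}
    (hs : s.Nonzero) (j : ℕ) : (s.pow j).Nonzero := by
  obtain ⟨e, he, x, hx, hn⟩ := hs
  exact ⟨e, he, x, hx, by rw [s.pow_coeff]; exact pow_ne_zero _ hn⟩

end Vale.Agent.P299
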