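import Vale.Agent.P299.Components
import Vale.Agent.P299.B.Main
import Vale.Agent.P299.B.Gordan

/-!
# Torus invariant sections from a log canonical family
-/

open scoped Manifold Topology ContDiff ENNReal NNReal
open Set Filter MeasureTheory

set_option linter.unusedSectionVars false

namespace Vale.Agent.P299

section Eigen

variable {E : Type*} [NormedAddCommGroup E] [NormedSpace ℂ E]
variable {M : Type*} [TopologicalSpace M] [ChartedSpace E M]

theorem AntiSection.IsEigen.mul {m k : ℕ} {s : AntiSection E M m} {t : AntiSection E M k}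
    {g : M → M} {c d : ℂ} (hs : s.IsEigen g c) (ht : t.IsEigen g d) :
    (s.mul t).IsEigen g (c * d) := by
  intro e he e' he' x hx hx'
  change s.coeff e' (g x) * t.coeff e' (g x) = c * d * _ * (s.coeff e x * t.coeff e x)
  rw [hs e he e' he' x hx hx', ht e he e' he' x hx hx', pow_add]
  ring

theorem AntiSection.IsEigen.pow {m : ℕ} {s : AntiSection E M m}
    {g : M → M} {c : ℂ} (hs : s.IsEigen g c) (j : ℕ) :
    (s.pow j).IsEigen g (c ^ j) := by
  intro e he e' he' x hx hx'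
  rw [s.pow_coeff, s.pow_coeff, hs e he e' he' x hx hx', mul_pow, mul_pow, ← pow_mul,
    mul_comm m j]

theorem AntiSection.isEigen_cast {m k : ℕ} (h : m = k) {s : AntiSection E M m} {g : M → M}
    {c : ℂ} : (s.cast h).IsEigen g c ↔ s.IsEigen g c := by
  subst h; rfl

end Eigen

open Meas

variable {n r : ℕ} {F : Type*} [TopologicalSpace F] [ChartedSpace (Cn n) F]
  [IsManifold 𝓘(ℂ, Cn n) ω F] [CompactSpace F] [T2Space F]

/-- products of powers of eigensections -/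
theorem exists_prod [PreconnectedSpace F] {m : ℕ} (T : TorusAction r (Cn n) F)
    (S : Finset (Fin r → ℤ)) (k : (Fin r → ℤ) → ℕ) (u : (Fin r → ℤ) → AntiSection (Cn n) F m)
    (hne : ∀ χ ∈ S, (u χ).Nonzero)
    (heig : ∀ χ ∈ S, ∀ w : Cn r, (u χ).IsEigen (T.act w) (Complex.exp (∑ j, χ j * w j)))
    (hF : Nonempty F) :
    ∃ t : AntiSection (Cn n) F (∑ χ ∈ S, k χ * m), t.Nonzero ∧
      ∀ w : Cn r, t.IsEigen (T.act w) (Complex.exp (∑ j, ((∑ χ ∈ S, k χ • χ) j : ℂ) * w j)) := by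
  classical
  induction S using Finset.induction_on with
  | empty =>
    obtain ⟨x⟩ := hF
    refine ⟨(AntiSection.one (Cn n) F).cast (by simp), ?_, ?_⟩
    · exact ⟨chartAt _ x, chart_mem_atlas _ x, x, mem_chart_source _ x, one_ne_zero⟩
    · intro w e he e' he' y hy hy'
      change (1 : ℂ) = _ * _ * 1
      simp
  | insert χ₀ S hχ₀ ih =>
    obtain ⟨t, ht, htw⟩ := ih (fun χ h => hne χ (Finset.mem_insert_of_mem h))
      (fun χ h => heig χ (Finset.mem_insert_of_mem h))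
    have h0 := hne χ₀ (Finset.mem_insert_self _ _)
    have h1 := heig χ₀ (Finset.mem_insert_self _ _)
    have h2 := (h0.pow (k χ₀)).mul ht
    refine ⟨(((u χ₀).pow (k χ₀)).mul t).cast (by rw [Finset.sum_insert hχ₀]), ?_, ?_⟩
    · obtain ⟨e, he, x, hx, hn⟩ := h2
      exact ⟨e, he, x, hx, hn⟩
    · intro w
      have h3 := ((h1 w).pow (k χ₀)).mul (htw w)
      have h4 : Complex.exp (∑ j, (χ₀ j : ℂ) * w j) ^ (k χ₀) *
          Complex.exp (∑ j, ((∑ χ ∈ S, k χ • χ) j : ℂ) * w j)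
          = Complex.exp (∑ j, ((∑ χ ∈ insert χ₀ S, k χ • χ) j : ℂ) * w j) := by
        rw [← Complex.exp_nat_mul, ← Complex.exp_add, Finset.mul_sum, ← Finset.sum_add_distrib]
        congr 1
        refine Finset.sum_congr rfl fun j _ => ?_
        have h6 : (∑ χ ∈ insert χ₀ S, k χ • χ) j = k χ₀ * χ₀ j + (∑ χ ∈ S, k χ • χ) j := by
          rw [Finset.sum_insert hχ₀, Pi.add_apply, Pi.smul_apply, nsmul_eq_mul]
        rw [h6]
        push_cast
        ring
      rw [h4] at h3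
      exact (AntiSection.isEigen_cast _).2 h3

/-- the log canonical condition passes to a family dominating the given one -/
theorem IsLC.of_le {m : ℕ} {κ ι : Type*} [Fintype κ] [Fintype ι]
    {s : κ → AntiSection (Cn n) F m} {t : ι → AntiSection (Cn n) F m} (hs : IsLC s) (C : ℝ≥0)
    (hC : 1 ≤ C) (h : ∀ e ∈ atlas (Cn n) F, ∀ x ∈ e.source,
      ∑ i, ‖(s i).coeff e x‖ₑ ^ 2 ≤ C * ∑ a, ‖(t a).coeff e x‖ₑ ^ 2) : IsLC t := by
  intro c hc0 hc1 e he K hK hKe
  have h1 := hs c hc0 hc1 e he K hK hKe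
  set p : ℝ := c / m with hp
  have hp0 : 0 ≤ p := by positivity
  have h2 : ∀ z ∈ K, (∑ a, ‖(t a).coeff e (e.symm z)‖ₑ ^ 2) ^ (-p)
      ≤ (C : ℝ≥0∞) ^ p * (∑ i, ‖(s i).coeff e (e.symm z)‖ₑ ^ 2) ^ (-p) := by
    intro z hz
    have h3 := h e he (e.symm z) (e.map_target (hKe hz))
    set A := ∑ i, ‖(s i).coeff e (e.symm z)‖ₑ ^ 2
    set B := ∑ a, ‖(t a).coeff e (e.symm z)‖ₑ ^ 2
    have hC0 : (C : ℝ≥0∞) ≠ 0 := by
      have : (0 : ℝ≥0) < C := lt_of_lt_of_le one_pos hC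
      exact_mod_cast this.ne'
    have h4 : B⁻¹ ≤ C * A⁻¹ := by
      have h5 : (C * B)⁻¹ ≤ A⁻¹ := ENNReal.inv_le_inv.2 h3
      rw [ENNReal.mul_inv (Or.inl hC0) (Or.inl ENNReal.coe_ne_top)] at h5
      calc B⁻¹ = C * ((C : ℝ≥0∞)⁻¹ * B⁻¹) := by
            rw [← mul_assoc, ENNReal.mul_inv_cancel hC0 ENNReal.coe_ne_top, one_mul]
        _ ≤ C * A⁻¹ := by gcongr
    rw [ENNReal.rpow_neg, ENNReal.rpow_neg, ← ENNReal.inv_rpow, ← ENNReal.inv_rpow,
      ← ENNReal.mul_rpow_of_nonneg _ _ hp0]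
    exact ENNReal.rpow_le_rpow h4 hp0
  calc ∫⁻ z in K, (∑ a, ‖(t a).coeff e (e.symm z)‖ₑ ^ 2) ^ (-p)
      ≤ ∫⁻ z in K, (C : ℝ≥0∞) ^ p * (∑ i, ‖(s i).coeff e (e.symm z)‖ₑ ^ 2) ^ (-p) :=
        setLIntegral_mono' hK.measurableSet h2
    _ = (C : ℝ≥0∞) ^ p * ∫⁻ z in K, (∑ i, ‖(s i).coeff e (e.symm z)‖ₑ ^ 2) ^ (-p) := by
        rw [lintegral_const_mul' _ _ (ENNReal.rpow_ne_top_of_nonneg hp0 ENNReal.coe_ne_top)]
    _ < ⊤ := ENNReal.mul_lt_top (ENNReal.rpow_ne_top_of_nonneg hp0 ENNReal.coe_ne_top).lt_top h1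

/-- A log canonical family of sections of `-mK_F` yields a nonzero section of some `-NK_F`,
`N ≥ 1`, which is invariant under the torus. -/
theorem exists_torus_invariant [ConnectedSpace F] (T : TorusAction r (Cn n) F) {m : ℕ} (hm : 1 ≤ m)
    {κ : Type*} [Fintype κ] (s : κ → AntiSection (Cn n) F m) (hs : IsLC s) :
    ∃ N, 1 ≤ N ∧ ∃ t : AntiSection (Cn n) F N, t.Nonzero ∧ ∀ w, t.IsEigen (T.act w) 1 := by
  classical
  have hF : Nonempty F := inferInstance
  choose ι hι t χ ht1 ht2 using fun i => T.exists_weights (s i)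
  -- the family of all nonzero weight vectors
  let A := {a : Σ i, ι i // (t a.1 a.2).Nonzero}
  let u : A → AntiSection (Cn n) F m := fun a => t a.1.1 a.1.2
  let X : A → Fin r → ℤ := fun a => χ a.1.1 a.1.2
  have hu : ∀ a, (u a).Nonzero := fun a => a.2
  have hX : ∀ (a : A) (w : Cn r), (u a).IsEigen (T.act w) (Complex.exp (∑ j, X a j * w j)) :=
    fun a w => ht2 _ _ w
  -- the family is log canonical
  have hlc : IsLC u := by
    let C : ℝ≥0 := 1 + ∑ i, (Fintype.card (ι i) : ℝ≥0)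
    refine hs.of_le C (by simp [C]) ?_
    intro e he x hx
    have h1 : ∀ i, ‖(s i).coeff e x‖ₑ ^ 2 ≤ (Fintype.card (ι i) : ℝ≥0) *
        ∑ a, ‖(t i a).coeff e x‖ₑ ^ 2 := by
      intro i
      rw [ht1 i e he x hx]
      change ‖∑ a, (t i a).coeff e x‖ₑ ^ 2 ≤ _
      have h2 : ‖∑ a, (t i a).coeff e x‖₊ ^ 2 ≤ (Fintype.card (ι i) : ℝ≥0) *
          ∑ a, ‖(t i a).coeff e x‖₊ ^ 2 := by
        have h3 : ‖∑ a, (t i a).coeff e x‖₊ ≤ ∑ a, ‖(t i a).coeff e x‖₊ := nnnorm_sum_le _ _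
        calc ‖∑ a, (t i a).coeff e x‖₊ ^ 2 ≤ (∑ a, ‖(t i a).coeff e x‖₊) ^ 2 := by gcongr
          _ ≤ (Fintype.card (ι i) : ℝ≥0) * ∑ a, ‖(t i a).coeff e x‖₊ ^ 2 := by
            have h4 := sq_sum_le_card_mul_sum_sq (s := (Finset.univ : Finset (ι i)))
              (f := fun a => ‖(t i a).coeff e x‖₊)
            simpa using h4
      have h5 : ((‖∑ a, (t i a).coeff e x‖₊ ^ 2 : ℝ≥0) : ℝ≥0∞) ≤
          (((Fintype.card (ι i) : ℝ≥0) * ∑ a, ‖(t i a).coeff e x‖₊ ^ 2 : ℝ≥0) : ℝ≥0∞) :=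
        ENNReal.coe_le_coe.2 h2
      push_cast at h5
      simpa [enorm_eq_nnnorm] using h5
    have h6 : ∀ i, (Fintype.card (ι i) : ℝ≥0) ≤ C := by
      intro i
      have h7 : (Fintype.card (ι i) : ℝ≥0) ≤ ∑ i, (Fintype.card (ι i) : ℝ≥0) :=
        Finset.single_le_sum (f := fun i => (Fintype.card (ι i) : ℝ≥0)) (fun _ _ => zero_le)
          (Finset.mem_univ i)
      exact h7.trans (le_add_of_nonneg_left zero_le_one)
    have h8 : ∑ i, ‖(s i).coeff e x‖ₑ ^ 2 ≤ C * ∑ i, ∑ a, ‖(t i a).coeff e x‖ₑ ^ 2 := by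
      rw [Finset.mul_sum]
      refine Finset.sum_le_sum fun i _ => (h1 i).trans ?_
      gcongr
      exact_mod_cast h6 i
    refine h8.trans (le_of_eq ?_)
    congr 1
    rw [← Fintype.sum_sigma' (fun i a => ‖(t i a).coeff e x‖ₑ ^ 2)]
    refine (Fintype.sum_of_injective (fun a : A => a.1) Subtype.val_injective _ _ ?_ ?_).symm
    · intro p hp
      have h9 : ¬ (t p.1 p.2).Nonzero := fun h => hp ⟨⟨p, h⟩, rfl⟩
      have h10 : (t p.1 p.2).coeff e x = 0 := by
        by_contra h11; exact h9 ⟨e, he, x, hx, h11⟩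
      rw [h10]; simp
    · intro a; rfl
  -- the alternative of Gordan
  rcases gordan (Finset.univ.image X) with ⟨k, ⟨χ₀, hχ₀, hk⟩, hsum⟩ | ⟨l, δ, hδ, hl⟩
  · have hch : ∀ χ' : Fin r → ℤ, ∃ v : AntiSection (Cn n) F m, χ' ∈ Finset.univ.image X →
        v.Nonzero ∧ ∀ w : Cn r, v.IsEigen (T.act w) (Complex.exp (∑ j, χ' j * w j)) := by
      intro χ'
      by_cases h : χ' ∈ Finset.univ.image X
      · obtain ⟨a, -, rfl⟩ := Finset.mem_image.1 h
        exact ⟨u a, fun _ => ⟨hu a, hX a⟩⟩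
      · exact ⟨AntiSection.zero _ _ _, fun h' => absurd h' h⟩
    choose v hv using hch
    obtain ⟨t', ht', htw⟩ := exists_prod T (Finset.univ.image X) k v (fun χ' h => (hv χ' h).1)
      (fun χ' h => (hv χ' h).2) hF
    refine ⟨_, ?_, t', ht', fun w => ?_⟩
    · have h1 : k χ₀ * m ≤ ∑ χ ∈ Finset.univ.image X, k χ * m :=
        Finset.single_le_sum (f := fun χ => k χ * m) (fun _ _ => Nat.zero_le _) hχ₀
      have h2 : 1 ≤ k χ₀ * m := Nat.mul_pos (Nat.pos_of_ne_zero hk) hm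
      exact h2.trans h1
    · have h1 := htw w
      rw [hsum] at h1
      simpa using h1
  · exfalso
    let w : Cn r := fun j => (l j : ℂ)
    refine no_expansion_family hm u hlc (T.contMDiff_act w) ?_
      (fun a => Complex.exp (∑ j, X a j * w j)) (Real.exp δ) (Real.one_lt_exp_iff.2 hδ) ?_
      (fun a => hX a w)
    · exact ⟨fun x y h => by rw [← T.act_neg_act w x, h, T.act_neg_act],
        fun y => ⟨T.act (-w) y, T.act_act_neg w y⟩⟩
    · intro a
      have h1 := hl (X a) (Finset.mem_image_of_mem _ (Finset.mem_univ a))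
      rw [Complex.norm_exp]
      apply Real.exp_le_exp.2
      refine h1.trans (le_of_eq ?_)
      rw [Complex.re_sum]
      refine Finset.sum_congr rfl fun j _ => ?_
      simp [w, mul_comm]

end Vale.Agent.P299
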