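import Vale.Agent.P299.Defs
import Mathlib.Analysis.Calculus.FDeriv.Analytic
import Mathlib.Analysis.Analytic.Constructions
import Mathlib.Analysis.Normed.Module.FiniteDimension

/-!
# Basic facts on the Jacobian in charts
-/

open scoped Manifold Topology ContDiff
open Set Filter

namespace Vale.Agent.P299

variable {E : Type*} [NormedAddCommGroup E] [NormedSpace ℂ E]
variable {M : Type*} [TopologicalSpace M] [ChartedSpace E M]
variable {N : Type*} [TopologicalSpace N] [ChartedSpace E N]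
variable {P : Type*} [TopologicalSpace P] [ChartedSpace E P]

section Mixed

variable {E' : Type*} [NormedAddCommGroup E'] [NormedSpace ℂ E']
variable {N' : Type*} [TopologicalSpace N'] [ChartedSpace E' N']

/-- the chart expression of a holomorphic map is analytic -/
theorem analyticAt_chart [CompleteSpace E'] [IsManifold 𝓘(ℂ, E) ω M] [IsManifold 𝓘(ℂ, E') ω N']
    {g : M → N'} {x : M} (hg : ContMDiffAt 𝓘(ℂ, E) 𝓘(ℂ, E') ω g x)
    {e : OpenPartialHomeomorph M E} (he : e ∈ atlas E M)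
    {e' : OpenPartialHomeomorph N' E'} (he' : e' ∈ atlas E' N')
    (hx : x ∈ e.source) (hx' : g x ∈ e'.source) :
    AnalyticAt ℂ (e' ∘ g ∘ e.symm) (e x) := by
  have h1 : ContMDiffAt 𝓘(ℂ, E) 𝓘(ℂ, E) ω e.symm (e x) :=
    contMDiffAt_symm_of_mem_maximalAtlas (IsManifold.subset_maximalAtlas he) (e.map_source hx)
  have h2 : ContMDiffAt 𝓘(ℂ, E) 𝓘(ℂ, E') ω g (e.symm (e x)) := by
    rw [e.left_inv hx]; exact hg
  have h3 : ContMDiffAt 𝓘(ℂ, E') 𝓘(ℂ, E') ω e' (g (e.symm (e x))) := by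
    rw [e.left_inv hx]
    exact contMDiffAt_of_mem_maximalAtlas (IsManifold.subset_maximalAtlas he') hx'
  have h4 : ContMDiffAt 𝓘(ℂ, E) 𝓘(ℂ, E') ω (e' ∘ g ∘ e.symm) (e x) :=
    h3.comp (e x) (h2.comp (e x) h1)
  have h5 := contMDiffAt_iff_contDiffAt.1 h4
  exact h5.analyticAt

end Mixed

theorem jac_comp [CompleteSpace E] [IsManifold 𝓘(ℂ, E) ω M] [IsManifold 𝓘(ℂ, E) ω N]
    [IsManifold 𝓘(ℂ, E) ω P]
    {g : M → N} {h : N → P} {x : M} (hg : ContMDiffAt 𝓘(ℂ, E) 𝓘(ℂ, E) ω g x)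
    (hh : ContMDiffAt 𝓘(ℂ, E) 𝓘(ℂ, E) ω h (g x))
    {e : OpenPartialHomeomorph M E} (he : e ∈ atlas E M)
    {e' : OpenPartialHomeomorph N E} (he' : e' ∈ atlas E N)
    {e'' : OpenPartialHomeomorph P E} (he'' : e'' ∈ atlas E P)
    (hx : x ∈ e.source) (hx' : g x ∈ e'.source) (hx'' : h (g x) ∈ e''.source) :
    jac (h ∘ g) e e'' x = jac h e' e'' (g x) * jac g e e' x := by
  have h1 := (analyticAt_chart hg he he' hx hx').differentiableAt
  have h2 := (analyticAt_chart hh he' he'' hx' hx'').differentiableAt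
  have hev : (e'' ∘ (h ∘ g) ∘ e.symm) =ᶠ[𝓝 (e x)] (e'' ∘ h ∘ e'.symm) ∘ (e' ∘ g ∘ e.symm) := by
    have hc : ContinuousAt (g ∘ e.symm) (e x) := by
      refine ContinuousAt.comp ?_ (e.continuousAt_symm (e.map_source hx))
      rw [e.left_inv hx]; exact hg.continuousAt
    have hm : (g ∘ e.symm) (e x) ∈ e'.source := by simpa [e.left_inv hx] using hx'
    filter_upwards [hc.preimage_mem_nhds (e'.open_source.mem_nhds hm)] with z hz
    have hz' : g (e.symm z) ∈ e'.source := hz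
    simp [Function.comp, e'.left_inv hz']
  unfold jac
  rw [hev.fderiv_eq]
  have hval : (e' ∘ g ∘ e.symm) (e x) = e' (g x) := by simp [e.left_inv hx]
  rw [fderiv_comp (e x) (by rw [hval]; exact h2) h1, hval]
  change LinearMap.det _ = LinearMap.det _ * LinearMap.det _
  rw [← LinearMap.det_comp]
  rfl

omit [ChartedSpace E M] in
theorem jac_id_self {e : OpenPartialHomeomorph M E} {x : M} (hx : x ∈ e.source) :
    jac id e e x = 1 := by
  have hev : (e ∘ id ∘ e.symm) =ᶠ[𝓝 (e x)] id := by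
    filter_upwards [e.open_target.mem_nhds (e.map_source hx)] with z hz
    simp [e.right_inv hz]
  unfold jac
  rw [hev.fderiv_eq, fderiv_id]
  exact LinearMap.det_id

omit [ChartedSpace E M] [ChartedSpace E N] in
theorem jac_congr {g g' : M → N} {x : M} (h : g =ᶠ[𝓝 x] g') {e : OpenPartialHomeomorph M E}
    (e' : OpenPartialHomeomorph N E) (hx : x ∈ e.source) : jac g e e' x = jac g' e e' x := by
  have hev : (e' ∘ g ∘ e.symm) =ᶠ[𝓝 (e x)] (e' ∘ g' ∘ e.symm) := by
    have hc : ContinuousAt e.symm (e x) := e.continuousAt_symm (e.map_source hx)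
    have h' : ∀ᶠ y in 𝓝 (e.symm (e x)), g y = g' y := by rw [e.left_inv hx]; exact h
    filter_upwards [hc.eventually h'] with z hz
    simp [hz]
  unfold jac
  rw [hev.fderiv_eq]

theorem jac_id_comp [CompleteSpace E] [IsManifold 𝓘(ℂ, E) ω M] {x : M}
    {e : OpenPartialHomeomorph M E} (he : e ∈ atlas E M)
    {e' : OpenPartialHomeomorph M E} (he' : e' ∈ atlas E M)
    {e'' : OpenPartialHomeomorph M E} (he'' : e'' ∈ atlas E M)
    (hx : x ∈ e.source) (hx' : x ∈ e'.source) (hx'' : x ∈ e''.source) :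
    jac id e e'' x = jac id e' e'' x * jac id e e' x :=
  jac_comp (g := id) (h := id) contMDiffAt_id contMDiffAt_id he he' he'' hx hx' hx''

theorem jac_change_left [CompleteSpace E] [IsManifold 𝓘(ℂ, E) ω M] [IsManifold 𝓘(ℂ, E) ω N]
    {g : M → N} {x : M} (hg : ContMDiffAt 𝓘(ℂ, E) 𝓘(ℂ, E) ω g x)
    {e : OpenPartialHomeomorph M E} (he : e ∈ atlas E M)
    {e₁ : OpenPartialHomeomorph M E} (he₁ : e₁ ∈ atlas E M)
    {e' : OpenPartialHomeomorph N E} (he' : e' ∈ atlas E N)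
    (hx : x ∈ e.source) (hx₁ : x ∈ e₁.source) (hx' : g x ∈ e'.source) :
    jac g e e' x = jac g e₁ e' x * jac id e e₁ x :=
  jac_comp (g := id) (h := g) contMDiffAt_id hg he he₁ he' hx hx₁ hx'

theorem jac_change_right [CompleteSpace E] [IsManifold 𝓘(ℂ, E) ω M] [IsManifold 𝓘(ℂ, E) ω N]
    {g : M → N} {x : M} (hg : ContMDiffAt 𝓘(ℂ, E) 𝓘(ℂ, E) ω g x)
    {e : OpenPartialHomeomorph M E} (he : e ∈ atlas E M)
    {e' : OpenPartialHomeomorph N E} (he' : e' ∈ atlas E N)
    {e₁ : OpenPartialHomeomorph N E} (he₁ : e₁ ∈ atlas E N)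
    (hx : x ∈ e.source) (hx' : g x ∈ e'.source) (hx₁ : g x ∈ e₁.source) :
    jac g e e₁ x = jac id e' e₁ (g x) * jac g e e' x :=
  jac_comp (g := g) (h := id) hg contMDiffAt_id he he' he₁ hx hx' hx₁

theorem jac_id_ne_zero [CompleteSpace E] [IsManifold 𝓘(ℂ, E) ω M] {x : M}
    {e : OpenPartialHomeomorph M E} (he : e ∈ atlas E M)
    {e' : OpenPartialHomeomorph M E} (he' : e' ∈ atlas E M)
    (hx : x ∈ e.source) (hx' : x ∈ e'.source) : jac id e e' x ≠ 0 := by
  have h := jac_id_comp he he' he hx hx' hx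
  rw [jac_id_self hx] at h
  intro h0
  rw [h0, mul_zero] at h
  exact one_ne_zero h

theorem jac_ne_zero_of_leftInverse [CompleteSpace E] [IsManifold 𝓘(ℂ, E) ω M]
    [IsManifold 𝓘(ℂ, E) ω N]
    {g : M → N} {h : N → M} {x : M} (hg : ContMDiffAt 𝓘(ℂ, E) 𝓘(ℂ, E) ω g x)
    (hh : ContMDiffAt 𝓘(ℂ, E) 𝓘(ℂ, E) ω h (g x)) (hgh : ∀ᶠ y in 𝓝 x, h (g y) = y)
    {e : OpenPartialHomeomorph M E} (he : e ∈ atlas E M)
    {e' : OpenPartialHomeomorph N E} (he' : e' ∈ atlas E N)
    (hx : x ∈ e.source) (hx' : g x ∈ e'.source) : jac g e e' x ≠ 0 := by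
  have hxx : h (g x) = x := hgh.self_of_nhds
  have h1 := jac_comp hg hh he he' he hx hx' (by rw [hxx]; exact hx)
  have h2 : jac (h ∘ g) e e x = 1 := by
    rw [jac_congr (g := h ∘ g) (g' := id) hgh e hx, jac_id_self hx]
  rw [h2] at h1
  intro h0
  rw [h0, mul_zero] at h1
  exact one_ne_zero h1

section Det

variable [FiniteDimensional ℂ E]

theorem analyticAt_det (A : E →L[ℂ] E) : AnalyticAt ℂ (fun f : E →L[ℂ] E => f.det) A := by
  classical
  let b := Module.finBasis ℂ E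
  have h : (fun f : E →L[ℂ] E => f.det) = fun f : E →L[ℂ] E =>
      ∑ σ : Equiv.Perm (Fin (Module.finrank ℂ E)),
        ((Equiv.Perm.sign σ : ℤ) : ℂ) * ∏ i, b.repr (f (b i)) (σ i) := by
    funext f
    change LinearMap.det (f : E →ₗ[ℂ] E) = _
    rw [← LinearMap.det_toMatrix b, Matrix.det_apply']
    simp [LinearMap.toMatrix_apply]
  rw [h]
  refine Finset.analyticAt_fun_sum _ fun σ _ => ?_
  refine analyticAt_const.mul ?_
  refine Finset.analyticAt_fun_prod _ fun i _ => ?_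
  let L : (E →L[ℂ] E) →ₗ[ℂ] ℂ :=
    { toFun := fun f => b.repr (f (b i)) (σ i)
      map_add' := by intro f g; simp
      map_smul' := by intro c f; simp }
  have hL : Continuous L := by
    have h1 : Continuous fun f : E →L[ℂ] E => f (b i) :=
      (ContinuousLinearMap.apply ℂ E (b i)).continuous
    have h2 : Continuous fun v : E => b.coord (σ i) v :=
      (b.coord (σ i)).continuous_of_finiteDimensional
    exact h2.comp h1
  exact (ContinuousLinearMap.mk L hL).analyticAt A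

/-- the Jacobian determinant is analytic in the point -/
theorem analyticAt_jac [IsManifold 𝓘(ℂ, E) ω M] [IsManifold 𝓘(ℂ, E) ω N]
    {g : M → N} {x : M} (hg : ContMDiffAt 𝓘(ℂ, E) 𝓘(ℂ, E) ω g x)
    {e : OpenPartialHomeomorph M E} (he : e ∈ atlas E M)
    {e' : OpenPartialHomeomorph N E} (he' : e' ∈ atlas E N)
    (hx : x ∈ e.source) (hx' : g x ∈ e'.source) :
    AnalyticAt ℂ (jac g e e' ∘ e.symm) (e x) := by
  have : CompleteSpace E := FiniteDimensional.complete ℂ E
  have h1 := (analyticAt_chart hg he he' hx hx').fderiv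
  have h2 : AnalyticAt ℂ (fun z => (fderiv ℂ (e' ∘ g ∘ e.symm) z).det) (e x) :=
    (analyticAt_det _).comp h1
  refine h2.congr ?_
  filter_upwards [e.open_target.mem_nhds (e.map_source hx)] with z hz
  simp [jac, e.right_inv hz]

end Det

end Vale.Agent.P299
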