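import Mathlib.Analysis.Complex.Periodic
import Mathlib.Analysis.Complex.TaylorSeries
import Mathlib.Analysis.Complex.Liouville

/-!
# Periodic entire functions of exponential growth are Laurent polynomials in `exp`
-/

open Complex Filter Set
open scoped Topology Real

namespace Vale.Agent.P299

theorem poly_of_growth {f : ℂ → ℂ} (hf : Differentiable ℂ f) (n : ℕ) (C : ℝ)
    (hC : ∀ z, 1 ≤ ‖z‖ → ‖f z‖ ≤ C * ‖z‖ ^ n) :
    ∃ c : ℕ → ℂ, ∀ z, f z = ∑ i ∈ Finset.range (n + 1), c i * z ^ i := by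
  have hzero : ∀ i, n < i → iteratedDeriv i f 0 = 0 := by
    intro i hi
    have hb : ∀ R : ℝ, 1 ≤ R → ‖iteratedDeriv i f 0‖ ≤ (i.factorial * C) * R⁻¹ := by
      intro R hR
      have hR0 : 0 < R := lt_of_lt_of_le one_pos hR
      have h1 := norm_iteratedDeriv_le_of_forall_mem_sphere_norm_le (c := 0) (R := R)
        (C := C * R ^ n) i hR0 hf.diffContOnCl (by
          intro z hz
          have hz' : ‖z‖ = R := by simpa using hz
          have := hC z (by rw [hz']; exact hR)
          rwa [hz'] at this)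
      have hC0 : 0 ≤ C := by
        have := hC 1 (by simp)
        simp at this
        exact le_trans (norm_nonneg _) this
      refine h1.trans ?_
      obtain ⟨j, rfl⟩ : ∃ j, i = n + 1 + j := ⟨i - (n + 1), by omega⟩
      have h2 : (R ^ (n + 1 + j)) = R ^ n * (R * R ^ j) := by ring
      have h3 : 1 ≤ R ^ j := one_le_pow₀ hR
      rw [h2]
      have h4 : ((n + 1 + j).factorial : ℝ) * (C * R ^ n) / (R ^ n * (R * R ^ j))
          = ((n + 1 + j).factorial * C) * (R⁻¹ * (R ^ j)⁻¹) := by
        field_simp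
      rw [h4]
      have h5 : R⁻¹ * (R ^ j)⁻¹ ≤ R⁻¹ := by
        have : (R ^ j)⁻¹ ≤ 1 := inv_le_one_of_one_le₀ h3
        calc R⁻¹ * (R ^ j)⁻¹ ≤ R⁻¹ * 1 := by gcongr
          _ = R⁻¹ := mul_one _
      gcongr
    have hlim : Tendsto (fun R : ℝ => (i.factorial * C) * R⁻¹) atTop (𝓝 0) := by
      simpa using (tendsto_inv_atTop_zero (𝕜 := ℝ)).const_mul (i.factorial * C)
    have h0 : ‖iteratedDeriv i f 0‖ ≤ 0 := by
      refine ge_of_tendsto hlim ?_
      filter_upwards [eventually_ge_atTop 1] with R hR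
      exact hb R hR
    exact norm_le_zero_iff.1 h0
  refine ⟨fun i => (i.factorial : ℂ)⁻¹ * iteratedDeriv i f 0, fun z => ?_⟩
  have h1 := hasSum_taylorSeries_of_entire hf 0 z
  have h2 : HasSum (fun i : ℕ => (i.factorial : ℂ)⁻¹ • (z - 0) ^ i • iteratedDeriv i f 0)
      (∑ i ∈ Finset.range (n + 1),
        (i.factorial : ℂ)⁻¹ • (z - 0) ^ i • iteratedDeriv i f 0) := by
    apply hasSum_sum_of_ne_finset_zero
    intro i hi
    have : n < i := by simpa [Finset.mem_range] using hi
    rw [hzero i (by omega)]; simp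
  rw [h1.unique h2]
  refine Finset.sum_congr rfl fun i _ => ?_
  simp only [sub_zero, smul_eq_mul]
  ring

/-- a `2πi`-periodic entire function with `|φ u| ≤ C e^{K |Re u|}` is a Laurent polynomial in
`e^u` -/
theorem laurent_of_growth {φ : ℂ → ℂ} (hφ : Differentiable ℂ φ)
    (hper : ∀ u, φ (u + 2 * π * I) = φ u) (K : ℕ) (C : ℝ)
    (hC : ∀ u, ‖φ u‖ ≤ C * Real.exp (K * |u.re|)) :
    ∃ a : ℕ → ℂ, ∀ u, φ u = ∑ i ∈ Finset.range (2 * K + 1), a i * exp (((i : ℤ) - K : ℤ) * u) := by
  have hC0 : 0 ≤ C := by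
    have h0 := (norm_nonneg _).trans (hC 0)
    simpa using h0
  let ψ : ℂ → ℂ := fun z => φ (2 * π * I * z) * exp (2 * π * I * K * z)
  have hψ : Differentiable ℂ ψ := by
    apply Differentiable.mul
    · exact hφ.comp (by fun_prop)
    · fun_prop
  have hψper : Function.Periodic ψ ((1 : ℝ) : ℂ) := by
    intro z
    simp only [ψ, ofReal_one]
    have h1 : 2 * π * I * (z + 1) = 2 * π * I * z + 2 * π * I := by ring
    rw [h1, hper]
    have h2 : 2 * π * I * K * (z + 1) = 2 * π * I * K * z + (K : ℤ) * (2 * π * I) := by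
      push_cast; ring
    rw [h2, Complex.exp_add, Complex.exp_int_mul_two_pi_mul_I, mul_one]
  have hnorm : ∀ z : ℂ, ‖ψ z‖ ≤ C * Real.exp (2 * π * K * (|z.im| - z.im)) := by
    intro z
    have h1 := hC (2 * π * I * z)
    have h2 : (2 * π * I * z).re = -(2 * π * z.im) := by simp
    have h3 : (2 * π * I * K * z).re = -(2 * π * K * z.im) := by simp
    rw [h2] at h1
    have h4 : ‖ψ z‖ = ‖φ (2 * π * I * z)‖ * Real.exp (-(2 * π * K * z.im)) := by
      simp only [ψ, norm_mul, Complex.norm_exp, h3]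
    rw [h4]
    have h5 : |-(2 * π * z.im)| = 2 * π * |z.im| := by
      rw [abs_neg, abs_mul, abs_of_pos (by positivity)]
    rw [h5] at h1
    calc ‖φ (2 * π * I * z)‖ * Real.exp (-(2 * π * K * z.im))
        ≤ (C * Real.exp (K * (2 * π * |z.im|))) * Real.exp (-(2 * π * K * z.im)) := by gcongr
      _ = C * Real.exp (2 * π * K * (|z.im| - z.im)) := by
        rw [mul_assoc, ← Real.exp_add]; congr 2; ring
  let G := Function.Periodic.cuspFunction 1 ψ
  have hbd : BoundedAtFilter (comap im atTop) ψ := by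
    refine Asymptotics.IsBigO.of_bound C ?_
    have h1 : ∀ᶠ z : ℂ in comap im atTop, 0 ≤ z.im :=
      (eventually_ge_atTop (0 : ℝ)).comap _
    filter_upwards [h1] with z hz
    have := hnorm z
    rw [abs_of_nonneg hz, sub_self, mul_zero, Real.exp_zero] at this
    simpa using this
  have hGq : ∀ z, G (Function.Periodic.qParam 1 z) = ψ z :=
    Function.Periodic.eq_cuspFunction one_ne_zero hψper
  have hsurj : ∀ q : ℂ, q ≠ 0 → ∃ z, Function.Periodic.qParam 1 z = q := fun q hq =>
    ⟨_, Function.Periodic.qParam_right_inv one_ne_zero hq⟩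
  have hG : Differentiable ℂ G := by
    intro q
    by_cases hq : q = 0
    · rw [hq]
      exact Function.Periodic.differentiableAt_cuspFunction_zero one_pos hψper
        (Eventually.of_forall fun z => hψ z) hbd
    · obtain ⟨z, rfl⟩ := hsurj q hq
      exact Function.Periodic.differentiableAt_cuspFunction one_ne_zero hψper (hψ z)
  have hGgrowth : ∀ q, 1 ≤ ‖q‖ → ‖G q‖ ≤ C * ‖q‖ ^ (2 * K) := by
    intro q hq
    have hq0 : q ≠ 0 := by
      intro h; rw [h, norm_zero] at hq; linarith
    obtain ⟨z, rfl⟩ := hsurj q hq0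
    rw [hGq]
    have h1 := hnorm z
    have h2 := Function.Periodic.norm_qParam 1 z
    rw [h2] at hq ⊢
    have h3 : z.im ≤ 0 := by
      have h4 := (Real.one_le_exp_iff).1 hq
      have h5 : 0 ≤ -2 * π * z.im := by simpa using h4
      by_contra hcon
      push Not at hcon
      have : 0 < 2 * π * z.im := by positivity
      linarith
    rw [abs_of_nonpos h3] at h1
    refine h1.trans (le_of_eq ?_)
    rw [← Real.exp_nat_mul]
    congr 2
    push_cast
    ring
  obtain ⟨c, hc⟩ := poly_of_growth hG (2 * K) C hGgrowth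
  refine ⟨c, fun u => ?_⟩
  have h1 := hGq (u / (2 * π * I))
  have hne : (2 * π * I : ℂ) ≠ 0 := two_pi_I_ne_zero
  have h2 : ψ (u / (2 * π * I)) = φ u * exp (K * u) := by
    simp only [ψ]
    congr 2
    · field_simp
    · field_simp
  have h3 : Function.Periodic.qParam 1 (u / (2 * π * I)) = exp u := by
    simp only [Function.Periodic.qParam, ofReal_one, div_one]
    congr 1
    field_simp
  rw [h2, h3, hc] at h1
  have h4 : φ u = (∑ i ∈ Finset.range (2 * K + 1), c i * exp u ^ i) * exp (-(K * u)) := by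
    rw [h1, mul_assoc, ← Complex.exp_add, add_neg_cancel, Complex.exp_zero, mul_one]
  rw [h4, Finset.sum_mul]
  refine Finset.sum_congr rfl fun i _ => ?_
  rw [mul_assoc, ← Complex.exp_nat_mul, ← Complex.exp_add]
  congr 2
  push_cast
  ring

/-- the nodes of the discrete Fourier transform -/
noncomputable def node (L j : ℕ) : ℂ := 2 * π * I * j / L

theorem sum_node (L : ℕ) (hL : 0 < L) (l i : ℕ) (hl : l < L) (hi : i < L) (K : ℤ) :
    ∑ j ∈ Finset.range L, exp (((l : ℤ) - K : ℤ) * node L j) * exp (-(((i : ℤ) - K : ℤ) * node L j))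
      = if l = i then (L : ℂ) else 0 := by
  have hLc : (L : ℂ) ≠ 0 := by exact_mod_cast hL.ne'
  have h1 : ∀ j, exp (((l : ℤ) - K : ℤ) * node L j) * exp (-(((i : ℤ) - K : ℤ) * node L j))
      = (exp (((l : ℤ) - i : ℤ) * (2 * π * I / L))) ^ j := by
    intro j
    rw [← Complex.exp_add, ← Complex.exp_nat_mul]
    congr 1
    simp only [node]
    push_cast
    ring
  rw [Finset.sum_congr rfl fun j _ => h1 j]
  split_ifs with h
  · subst h
    simp
  · set x := exp (((l : ℤ) - i : ℤ) * (2 * π * I / L)) with hx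
    have hxL : x ^ L = 1 := by
      rw [hx, ← Complex.exp_nat_mul]
      have : (L : ℂ) * (((l : ℤ) - i : ℤ) * (2 * π * I / L)) = ((l : ℤ) - i : ℤ) * (2 * π * I) := by
        field_simp
      rw [this, Complex.exp_int_mul_two_pi_mul_I]
    have hx1 : x ≠ 1 := by
      intro h1
      rw [hx, Complex.exp_eq_one_iff] at h1
      obtain ⟨n, hn⟩ := h1
      have h2 : (((l : ℤ) - i : ℤ) : ℂ) = n * L := by
        have hne : (2 * π * I : ℂ) ≠ 0 := two_pi_I_ne_zero
        have h3 : (((l : ℤ) - i : ℤ) : ℂ) * (2 * π * I) = n * L * (2 * π * I) := by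
          have h4 : (((l : ℤ) - i : ℤ) : ℂ) * (2 * π * I / L) * L = n * (2 * π * I) * L := by
            rw [hn]
          have h5 : (((l : ℤ) - i : ℤ) : ℂ) * (2 * π * I / L) * L
              = (((l : ℤ) - i : ℤ) : ℂ) * (2 * π * I) := by field_simp
          rw [h5] at h4
          rw [h4]; ring
        exact mul_right_cancel₀ hne h3
      have h3 : (l : ℤ) - i = n * L := by exact_mod_cast h2
      have h4 : n = 0 := by
        by_contra hn0
        have h5 : 1 ≤ |n| := Int.one_le_abs hn0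
        have h6 : |(l : ℤ) - i| < L := by
          rw [abs_lt]; constructor <;> omega
        rw [h3, abs_mul, Nat.abs_cast] at h6
        nlinarith
      rw [h4, zero_mul] at h3
      apply h
      omega
    have h2 := geom_sum_eq hx1 L
    rw [h2, hxL, sub_self, zero_div]

/-- the components of a Laurent polynomial in `e^u` are finite combinations of translates -/
theorem laurent_component {φ : ℂ → ℂ} (K : ℕ) (a : ℕ → ℂ)
    (ha : ∀ u, φ u = ∑ i ∈ Finset.range (2 * K + 1), a i * exp (((i : ℤ) - K : ℤ) * u))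
    (i : ℕ) (hi : i ∈ Finset.range (2 * K + 1)) (v : ℂ) :
    ∑ j ∈ Finset.range (2 * K + 1), ((2 * K + 1 : ℕ) : ℂ)⁻¹ *
      exp (-(((i : ℤ) - K : ℤ) * node (2 * K + 1) j)) * φ (v + node (2 * K + 1) j)
      = exp (((i : ℤ) - K : ℤ) * v) * a i := by
  set L := 2 * K + 1 with hLdef
  have hL : 0 < L := by omega
  have hLc : (L : ℂ) ≠ 0 := by exact_mod_cast hL.ne'
  have h1 : ∀ j ∈ Finset.range L, (L : ℂ)⁻¹ * exp (-(((i : ℤ) - K : ℤ) * node L j)) *
      φ (v + node L j) = ∑ l ∈ Finset.range L, (L : ℂ)⁻¹ * (a l * exp (((l : ℤ) - K : ℤ) * v)) *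
        (exp (((l : ℤ) - K : ℤ) * node L j) * exp (-(((i : ℤ) - K : ℤ) * node L j))) := by
    intro j _
    rw [ha, Finset.mul_sum]
    refine Finset.sum_congr rfl fun l _ => ?_
    rw [mul_add, Complex.exp_add]
    ring
  rw [Finset.sum_congr rfl h1, Finset.sum_comm]
  have h2 : ∀ l ∈ Finset.range L, ∑ j ∈ Finset.range L, (L : ℂ)⁻¹ *
      (a l * exp (((l : ℤ) - K : ℤ) * v)) *
        (exp (((l : ℤ) - K : ℤ) * node L j) * exp (-(((i : ℤ) - K : ℤ) * node L j)))
      = if l = i then a i * exp (((i : ℤ) - K : ℤ) * v) else 0 := by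
    intro l hl
    rw [← Finset.mul_sum, sum_node L hL l i (Finset.mem_range.1 hl) (Finset.mem_range.1 hi)]
    split_ifs with h
    · subst h; field_simp
    · simp
  rw [Finset.sum_congr rfl h2, Finset.sum_ite_eq' (Finset.range L) i, if_pos hi]
  ring

end Vale.Agent.P299
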