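import Vale.Agent.P299.Defs

/-!
# Quotients of products of complex manifolds
-/

open scoped Manifold ContDiff Topology

namespace Vale.Agent.P299

variable {E₁ : Type*} [NormedAddCommGroup E₁] [NormedSpace ℂ E₁]
variable {E₂ : Type*} [NormedAddCommGroup E₂] [NormedSpace ℂ E₂]

/-- The complex manifold `X`, modelled on `E₁ × E₂`, is the quotient of the product `M × F` by the
group `Γ`, with quotient map `p` : the group `Γ` acts on `M × F` by holomorphic maps, `p` is a
surjective local biholomorphism, and its fibres are the orbits of `Γ`. -/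
structure IsQuotient (E₁ E₂ : Type*) [NormedAddCommGroup E₁] [NormedSpace ℂ E₁]
    [NormedAddCommGroup E₂] [NormedSpace ℂ E₂] (Γ : Type*) [Group Γ]
    {M : Type*} [TopologicalSpace M] [ChartedSpace E₁ M]
    {F : Type*} [TopologicalSpace F] [ChartedSpace E₂ F] [MulAction Γ (M × F)]
    {X : Type*} [TopologicalSpace X] [ChartedSpace (E₁ × E₂) X] (p : M × F → X) : Prop where
  act_holo : ∀ γ : Γ, ContMDiff (𝓘(ℂ, E₁).prod 𝓘(ℂ, E₂)) (𝓘(ℂ, E₁).prod 𝓘(ℂ, E₂)) ω
    (fun y : M × F => γ • y)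
  local_biholo : IsLocalDiffeomorph (𝓘(ℂ, E₁).prod 𝓘(ℂ, E₂)) 𝓘(ℂ, E₁ × E₂) ω p
  surjective : Function.Surjective p
  fibre : ∀ y y' : M × F, p y = p y' ↔ ∃ γ : Γ, γ • y = y'

/-- The map `g : M × F → M × F` is `(x, y) ↦ (h x, T w y)` where `h : M → M` is a holomorphic map
with `h^* η = η` and `T w`, for one `w ∈ ℂ^r`, is a transformation of the torus action `T`. -/
def IsTorusTwist {M : Type*} [TopologicalSpace M] [ChartedSpace E₁ M]
    {F : Type*} [TopologicalSpace F] [ChartedSpace E₂ F] {r k : ℕ}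
    (η : AntiSection E₁ M k) (T : TorusAction r E₂ F) (g : M × F → M × F) : Prop :=
  ∃ (h : M → M) (w : Fin r → ℂ), ContMDiff 𝓘(ℂ, E₁) 𝓘(ℂ, E₁) ω h ∧ η.IsEigen h 1 ∧
    ∀ x y, g (x, y) = (h x, T.act w y)

end Vale.Agent.P299
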