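import Vale.Agent.P299.Jac
import Mathlib.Analysis.Analytic.IsolatedZeros
import Mathlib.Analysis.Analytic.Uniqueness
import Mathlib.Analysis.Normed.Module.Connected

/-!
# Operations on sections of powers of the anticanonical bundle
-/

open scoped Manifold Topology ContDiff
open Set Filter

namespace Vale.Agent.P299

variable {E : Type*} [NormedAddCommGroup E] [NormedSpace ℂ E]
variable {M : Type*} [TopologicalSpace M] [ChartedSpace E M]
variable {N : Type*} [TopologicalSpace N] [ChartedSpace E N]

namespace AntiSection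

variable {m k : ℕ}

theorem analyticAt_coeff (s : AntiSection E M m) {e : OpenPartialHomeomorph M E}
    (he : e ∈ atlas E M) {x : M} (hx : x ∈ e.source) :
    AnalyticAt ℂ (s.coeff e ∘ e.symm) (e x) :=
  s.holo e he (e x) (e.map_source hx)

/-- the zero section -/
def zero (E : Type*) [NormedAddCommGroup E] [NormedSpace ℂ E]
    (M : Type*) [TopologicalSpace M] [ChartedSpace E M] (m : ℕ) : AntiSection E M m where
  coeff _ _ := 0
  holo _ _ := analyticOnNhd_const
  compat := by intros; simp

/-- the unit section of the trivial bundle -/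
def one (E : Type*) [NormedAddCommGroup E] [NormedSpace ℂ E]
    (M : Type*) [TopologicalSpace M] [ChartedSpace E M] : AntiSection E M 0 where
  coeff _ _ := 1
  holo _ _ := analyticOnNhd_const
  compat := by intros; simp

/-- scalar multiples -/
def smul (c : ℂ) (s : AntiSection E M m) : AntiSection E M m where
  coeff e x := c * s.coeff e x
  holo e he := analyticOnNhd_const.mul (s.holo e he)
  compat e he e' he' x hx := by rw [s.compat e he e' he' x hx]; ring

/-- sums -/
def add (s t : AntiSection E M m) : AntiSection E M m where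
  coeff e x := s.coeff e x + t.coeff e x
  holo e he := (s.holo e he).add (t.holo e he)
  compat e he e' he' x hx := by rw [s.compat e he e' he' x hx, t.compat e he e' he' x hx]; ring

/-- products -/
def mul (s : AntiSection E M m) (t : AntiSection E M k) : AntiSection E M (m + k) where
  coeff e x := s.coeff e x * t.coeff e x
  holo e he := (s.holo e he).mul (t.holo e he)
  compat e he e' he' x hx := by
    rw [s.compat e he e' he' x hx, t.compat e he e' he' x hx]; ring

/-- finite sums -/
def sum {ι : Type*} (A : Finset ι) (s : ι → AntiSection E M m) : AntiSection E M m where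
  coeff e x := ∑ i ∈ A, (s i).coeff e x
  holo e he := by
    have h : ((fun x => ∑ i ∈ A, (s i).coeff e x) ∘ e.symm)
        = fun z => ∑ i ∈ A, ((s i).coeff e ∘ e.symm) z := by
      funext z; simp
    rw [h]
    exact Finset.analyticOnNhd_fun_sum _ fun i _ => (s i).holo e he
  compat e he e' he' x hx := by
    rw [Finset.mul_sum]
    exact Finset.sum_congr rfl fun i _ => (s i).compat e he e' he' x hx

/-- change of the exponent along an equality -/
def cast (h : m = k) (s : AntiSection E M m) : AntiSection E M k where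
  coeff := s.coeff
  holo := s.holo
  compat := by subst h; exact s.compat

/-- powers -/
def pow (s : AntiSection E M m) : (j : ℕ) → AntiSection E M (j * m)
  | 0 => cast (by simp) (one E M)
  | j + 1 => cast (by ring) ((pow s j).mul s)

theorem pow_coeff (s : AntiSection E M m) (j : ℕ) (e : OpenPartialHomeomorph M E) (x : M) :
    (s.pow j).coeff e x = s.coeff e x ^ j := by
  induction j with
  | zero => simp [pow, cast, one]
  | succ j ih => simp [pow, cast, mul, ih, pow_succ]

end AntiSection

variable (E) in
/-- locally biholomorphic maps, in charts -/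
structure LocBihol (g : M → N) : Prop where
  holo : ContMDiff 𝓘(ℂ, E) 𝓘(ℂ, E) ω g
  ne_zero : ∀ e ∈ atlas E M, ∀ e' ∈ atlas E N, ∀ x ∈ e.source, g x ∈ e'.source →
    jac g e e' x ≠ 0

theorem LocBihol.of_inverse [CompleteSpace E] [IsManifold 𝓘(ℂ, E) ω M]
    [IsManifold 𝓘(ℂ, E) ω N] {g : M → N} {h : N → M}
    (hg : ContMDiff 𝓘(ℂ, E) 𝓘(ℂ, E) ω g) (hh : ContMDiff 𝓘(ℂ, E) 𝓘(ℂ, E) ω h)
    (hgh : ∀ x, h (g x) = x) : LocBihol E g where
  holo := hg
  ne_zero e he e' he' x hx hx' :=
    jac_ne_zero_of_leftInverse (hg x) (hh (g x)) (Eventually.of_forall hgh) he he' hx hx'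

/-- the pull back of a section by a locally biholomorphic map -/
noncomputable def AntiSection.pull [FiniteDimensional ℂ E] [IsManifold 𝓘(ℂ, E) ω M]
    [IsManifold 𝓘(ℂ, E) ω N] {m : ℕ} {g : M → N} (hg : LocBihol E g)
    (s : AntiSection E N m) : AntiSection E M m where
  coeff e x := s.coeff (chartAt E (g x)) (g x) * (jac g e (chartAt E (g x)) x ^ m)⁻¹
  holo e he := by
    have : CompleteSpace E := FiniteDimensional.complete ℂ E
    intro z hz
    set x := e.symm z with hxdef
    have hx : x ∈ e.source := e.map_target hz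
    have hzx : e x = z := e.right_inv hz
    set e' := chartAt E (g x) with he'def
    have he' : e' ∈ atlas E N := chart_mem_atlas E (g x)
    have hgx : g x ∈ e'.source := mem_chart_source E (g x)
    have h1 : AnalyticAt ℂ (s.coeff e' ∘ e'.symm) ((e' ∘ g ∘ e.symm) z) := by
      have : (e' ∘ g ∘ e.symm) z = e' (g x) := rfl
      rw [this]; exact s.analyticAt_coeff he' hgx
    have h2 : AnalyticAt ℂ (e' ∘ g ∘ e.symm) z := by
      have := analyticAt_chart (hg.holo x) he he' hx hgx
      rwa [hzx] at this
    have h3 : AnalyticAt ℂ (jac g e e' ∘ e.symm) z := by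
      have := analyticAt_jac (hg.holo x) he he' hx hgx
      rwa [hzx] at this
    have h4 : (jac g e e' ∘ e.symm) z ^ m ≠ 0 := pow_ne_zero _ (hg.ne_zero e he e' he' x hx hgx)
    have h5 := (h1.comp h2).mul ((h3.pow m).inv h4)
    refine h5.congr ?_
    have hc : ContinuousAt (g ∘ e.symm) z :=
      (hg.holo.continuous.continuousAt).comp (e.continuousAt_symm hz)
    filter_upwards [hc.preimage_mem_nhds (e'.open_source.mem_nhds hgx),
      e.open_target.mem_nhds hz] with w hw hwt
    have hw' : g (e.symm w) ∈ e'.source := hw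
    have hws : e.symm w ∈ e.source := e.map_target hwt
    have hc1 := chart_mem_atlas E (g (e.symm w))
    have hc2 := mem_chart_source E (g (e.symm w))
    have h6 := s.compat _ hc1 _ he' _ ⟨hc2, hw'⟩
    have h7 := jac_change_right (hg.holo (e.symm w)) he hc1 he' hws hc2 hw'
    have h8 := jac_id_ne_zero hc1 he' hc2 hw'
    simp only [Pi.mul_apply, Pi.inv_apply, Pi.pow_apply, Function.comp_apply, e'.left_inv hw']
    rw [h6, h7, mul_pow, mul_inv]
    field_simp
  compat e he e₁ he₁ x hx := by
    have : CompleteSpace E := FiniteDimensional.complete ℂ E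
    have h := jac_change_left (hg.holo x) he he₁ (chart_mem_atlas E (g x)) hx.1 hx.2
      (mem_chart_source E (g x))
    rw [h, mul_pow, mul_inv]
    have h8 := jac_id_ne_zero he he₁ hx.1 hx.2
    field_simp

theorem AntiSection.pull_coeff [FiniteDimensional ℂ E] [IsManifold 𝓘(ℂ, E) ω M]
    [IsManifold 𝓘(ℂ, E) ω N] {m : ℕ} {g : M → N} (hg : LocBihol E g)
    (s : AntiSection E N m) {e : OpenPartialHomeomorph M E} (he : e ∈ atlas E M)
    {e' : OpenPartialHomeomorph N E} (he' : e' ∈ atlas E N) {x : M} (hx : x ∈ e.source)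
    (hx' : g x ∈ e'.source) :
    (s.pull hg).coeff e x = s.coeff e' (g x) * (jac g e e' x ^ m)⁻¹ := by
  have : CompleteSpace E := FiniteDimensional.complete ℂ E
  have hc1 := chart_mem_atlas E (g x)
  have hc2 := mem_chart_source E (g x)
  have h6 := s.compat _ hc1 _ he' _ ⟨hc2, hx'⟩
  have h7 := jac_change_right (hg.holo x) he hc1 he' hx hc2 hx'
  have h8 := jac_id_ne_zero hc1 he' hc2 hx'
  change s.coeff (chartAt E (g x)) (g x) * (jac g e (chartAt E (g x)) x ^ m)⁻¹ = _
  rw [h6, h7, mul_pow, mul_inv]
  field_simp

/-- equality of sections (on the charts of the atlas) -/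
def AntiSection.Eqv {m : ℕ} (s t : AntiSection E M m) : Prop :=
  ∀ e ∈ atlas E M, ∀ x ∈ e.source, s.coeff e x = t.coeff e x

theorem AntiSection.Nonzero.congr {m : ℕ} {s t : AntiSection E M m} (hs : s.Nonzero)
    (h : s.Eqv t) : t.Nonzero := by
  obtain ⟨e, he, x, hx, hn⟩ := hs
  exact ⟨e, he, x, hx, by rw [← h e he x hx]; exact hn⟩

/-- if a section vanishes at a point in one chart, it does in every chart -/
theorem AntiSection.coeff_eq_zero {m : ℕ} (s : AntiSection E M m)
    {e e' : OpenPartialHomeomorph M E} (he : e ∈ atlas E M) (he' : e' ∈ atlas E M) {x : M}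
    (hx : x ∈ e.source) (hx' : x ∈ e'.source) (h : s.coeff e x = 0) : s.coeff e' x = 0 := by
  rw [s.compat e he e' he' x ⟨hx, hx'⟩, h, mul_zero]

theorem AntiSection.isEigen_iff_pull [FiniteDimensional ℂ E] [IsManifold 𝓘(ℂ, E) ω M]
    {m : ℕ} {g : M → M} (hg : LocBihol E g) (s : AntiSection E M m) (c : ℂ) :
    s.IsEigen g c ↔ (s.pull hg).Eqv (s.smul c) := by
  constructor
  · intro h e he x hx
    have hc1 := chart_mem_atlas E (g x)
    have hc2 := mem_chart_source E (g x)
    rw [s.pull_coeff hg he hc1 hx hc2, h e he _ hc1 x hx hc2]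
    have := pow_ne_zero m (hg.ne_zero e he _ hc1 x hx hc2)
    change _ = c * s.coeff e x
    field_simp
  · intro h e he e' he' x hx hx'
    have h1 := h e he x hx
    rw [s.pull_coeff hg he he' hx hx'] at h1
    have := pow_ne_zero m (hg.ne_zero e he e' he' x hx hx')
    change _ = c * s.coeff e x at h1
    field_simp at h1
    rw [h1]; ring

end Vale.Agent.P299
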