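import Vale.Agent.P299.Identity
import Vale.Agent.P299.Laurent
import Vale.Agent.P299.B.Meas

/-!
# Weight decomposition of sections under a torus action
-/

open scoped Manifold Topology ContDiff
open Set Filter

namespace Vale.Agent.P299

section General

variable {E : Type*} [NormedAddCommGroup E] [NormedSpace ℂ E]
variable {M : Type*} [TopologicalSpace M] [ChartedSpace E M]
variable {N : Type*} [TopologicalSpace N] [ChartedSpace E N]
variable {P : Type*} [TopologicalSpace P] [ChartedSpace E P]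

theorem LocBihol.comp [CompleteSpace E] [IsManifold 𝓘(ℂ, E) ω M] [IsManifold 𝓘(ℂ, E) ω N]
    [IsManifold 𝓘(ℂ, E) ω P] {g : M → N} {h : N → P} (hh : LocBihol E h) (hg : LocBihol E g) :
    LocBihol E (h ∘ g) where
  holo := hh.holo.comp hg.holo
  ne_zero e he e'' he'' x hx hx'' := by
    have h1 := chart_mem_atlas E (g x)
    have h2 := mem_chart_source E (g x)
    rw [jac_comp (hg.holo x) (hh.holo (g x)) he h1 he'' hx h2 hx'']
    exact mul_ne_zero (hh.ne_zero _ h1 _ he'' _ h2 hx'') (hg.ne_zero _ he _ h1 _ hx h2)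

theorem AntiSection.pull_pull [FiniteDimensional ℂ E] [IsManifold 𝓘(ℂ, E) ω M]
    [IsManifold 𝓘(ℂ, E) ω N] [IsManifold 𝓘(ℂ, E) ω P] {m : ℕ} {g : M → N} {h : N → P}
    (hh : LocBihol E h) (hg : LocBihol E g) (hhg : LocBihol E (h ∘ g)) (s : AntiSection E P m) :
    ((s.pull hh).pull hg).Eqv (s.pull hhg) := by
  have : CompleteSpace E := FiniteDimensional.complete ℂ E
  intro e he x hx
  have h1 := chart_mem_atlas E (g x)
  have h2 := mem_chart_source E (g x)
  have h3 := chart_mem_atlas E (h (g x))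
  have h4 := mem_chart_source E (h (g x))
  rw [AntiSection.pull_coeff hg _ he h1 hx h2, AntiSection.pull_coeff hh _ h1 h3 h2 h4,
    AntiSection.pull_coeff hhg _ he h3 hx h4, jac_comp (hg.holo x) (hh.holo (g x)) he h1 h3 hx h2 h4,
    mul_pow, mul_inv]
  simp only [Function.comp_apply]
  ring

theorem AntiSection.IsEigen.comp [CompleteSpace E] [IsManifold 𝓘(ℂ, E) ω M] {m : ℕ}
    {s : AntiSection E M m} {g h : M → M} {c d : ℂ} (hg : s.IsEigen g c) (hh : s.IsEigen h d)
    (hgm : ContMDiff 𝓘(ℂ, E) 𝓘(ℂ, E) ω g) (hhm : ContMDiff 𝓘(ℂ, E) 𝓘(ℂ, E) ω h) :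
    s.IsEigen (h ∘ g) (d * c) := by
  intro e he e' he' x hx hx'
  have h1 := chart_mem_atlas E (g x)
  have h2 := mem_chart_source E (g x)
  rw [jac_comp (hgm x) (hhm (g x)) he h1 he' hx h2 hx']
  have h3 := hh _ h1 _ he' (g x) h2 hx'
  have h4 := hg _ he _ h1 x hx h2
  change s.coeff e' (h (g x)) = _
  rw [h3, h4]; ring

end General

open Meas

variable {n r : ℕ} {F : Type*} [TopologicalSpace F] [ChartedSpace (Cn n) F]

namespace TorusAction

variable (T : TorusAction r (Cn n) F)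

theorem contMDiff_act (w : Cn r) : ContMDiff 𝓘(ℂ, Cn n) 𝓘(ℂ, Cn n) ω (T.act w) := by
  have h : ContMDiff 𝓘(ℂ, Cn n) (𝓘(ℂ, Cn r).prod 𝓘(ℂ, Cn n)) ω (fun x : F => (w, x)) :=
    contMDiff_const.prodMk contMDiff_id
  exact T.holo.comp h

theorem act_neg_act (w : Cn r) (x : F) : T.act (-w) (T.act w x) = x := by
  rw [← T.act_add, neg_add_cancel, T.act_zero]

theorem act_act_neg (w : Cn r) (x : F) : T.act w (T.act (-w) x) = x := by
  rw [← T.act_add, add_neg_cancel, T.act_zero]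

variable [IsManifold 𝓘(ℂ, Cn n) ω F]

theorem locBihol (w : Cn r) : LocBihol (Cn n) (T.act w) :=
  LocBihol.of_inverse (T.contMDiff_act w) (T.contMDiff_act (-w)) (T.act_neg_act w)

variable {m : ℕ}

/-- the pull back of a section by an element of the torus -/
noncomputable def pull (w : Cn r) (s : AntiSection (Cn n) F m) : AntiSection (Cn n) F m :=
  s.pull (T.locBihol w)

theorem pull_coeff (w : Cn r) (s : AntiSection (Cn n) F m) {e : OpenPartialHomeomorph F (Cn n)}
    (he : e ∈ atlas (Cn n) F) {e' : OpenPartialHomeomorph F (Cn n)} (he' : e' ∈ atlas (Cn n) F)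
    {x : F} (hx : x ∈ e.source) (hx' : T.act w x ∈ e'.source) :
    (T.pull w s).coeff e x = s.coeff e' (T.act w x) * (jac (T.act w) e e' x ^ m)⁻¹ :=
  AntiSection.pull_coeff (T.locBihol w) s he he' hx hx'

theorem pull_pull (v w : Cn r) (s : AntiSection (Cn n) F m) :
    (T.pull v (T.pull w s)).Eqv (T.pull (w + v) s) := by
  intro e he x hx
  have h0 : T.act (w + v) = T.act w ∘ T.act v := by funext x; exact T.act_add w v x
  have h1 := chart_mem_atlas (Cn n) (T.act v x)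
  have h2 := mem_chart_source (Cn n) (T.act v x)
  have h3 := chart_mem_atlas (Cn n) (T.act w (T.act v x))
  have h4 := mem_chart_source (Cn n) (T.act w (T.act v x))
  have h5 : T.act (w + v) x ∈ (chartAt (Cn n) (T.act w (T.act v x))).source := by
    rw [h0]; exact h4
  rw [T.pull_coeff v _ he h1 hx h2, T.pull_coeff w _ h1 h3 h2 h4,
    T.pull_coeff (w + v) _ he h3 hx h5, h0, jac_comp (T.contMDiff_act v x)
      (T.contMDiff_act w _) he h1 h3 hx h2 h4, mul_pow, mul_inv]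
  simp only [Function.comp_apply]
  ring

theorem pull_congr (w : Cn r) {s t : AntiSection (Cn n) F m} (h : s.Eqv t) :
    (T.pull w s).Eqv (T.pull w t) := by
  intro e he x hx
  have h1 := chart_mem_atlas (Cn n) (T.act w x)
  have h2 := mem_chart_source (Cn n) (T.act w x)
  rw [T.pull_coeff w _ he h1 hx h2, T.pull_coeff w _ he h1 hx h2, h _ h1 _ h2]

theorem pull_zero_eqv (s : AntiSection (Cn n) F m) : (T.pull 0 s).Eqv s := by
  intro e he x hx
  have h0 : T.act 0 = id := by funext x; exact T.act_zero x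
  have h1 : T.act 0 x ∈ e.source := by rw [T.act_zero]; exact hx
  rw [T.pull_coeff 0 _ he he hx h1, T.act_zero, h0, jac_id_self hx]
  simp

/-- joint analyticity of the pull back -/
theorem analyticAt_pull (s : AntiSection (Cn n) F m) {e : OpenPartialHomeomorph F (Cn n)}
    (he : e ∈ atlas (Cn n) F) (w₀ : Cn r) {z₀ : Cn n} (hz₀ : z₀ ∈ e.target) :
    AnalyticAt ℂ (fun p : Cn r × Cn n => (T.pull p.1 s).coeff e (e.symm p.2)) (w₀, z₀) := by
  set x₀ := e.symm z₀ with hx₀
  have hx₀s : x₀ ∈ e.source := e.map_target hz₀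
  set e' := chartAt (Cn n) (T.act w₀ x₀) with he'def
  have he' : e' ∈ atlas (Cn n) F := chart_mem_atlas _ _
  have hx₀' : T.act w₀ x₀ ∈ e'.source := mem_chart_source _ _
  let A : Cn r × Cn n → Cn n := fun p => e' (T.act p.1 (e.symm p.2))
  -- the inner map
  have h1 : ContMDiffAt 𝓘(ℂ, Cn r × Cn n) (𝓘(ℂ, Cn r).prod 𝓘(ℂ, Cn n)) ω
      (fun p : Cn r × Cn n => (p.1, e.symm p.2)) (w₀, z₀) := by
    have ha : ContMDiffAt 𝓘(ℂ, Cn r × Cn n) 𝓘(ℂ, Cn r) ω (fun p : Cn r × Cn n => p.1) (w₀, z₀) :=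
      contDiff_fst.contMDiff.contMDiffAt
    have hb : ContMDiffAt 𝓘(ℂ, Cn r × Cn n) 𝓘(ℂ, Cn n) ω (fun p : Cn r × Cn n => p.2) (w₀, z₀) :=
      contDiff_snd.contMDiff.contMDiffAt
    have hc : ContMDiffAt 𝓘(ℂ, Cn n) 𝓘(ℂ, Cn n) ω e.symm z₀ :=
      contMDiffAt_symm_of_mem_maximalAtlas (IsManifold.subset_maximalAtlas he) hz₀
    exact ha.prodMk (hc.comp (w₀, z₀) hb)
  have h2 : ContMDiffAt 𝓘(ℂ, Cn r × Cn n) 𝓘(ℂ, Cn n) ω
      (fun p : Cn r × Cn n => T.act p.1 (e.symm p.2)) (w₀, z₀) :=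
    (T.holo.contMDiffAt (x := (w₀, x₀))).comp (w₀, z₀) h1
  have h3 : ContMDiffAt 𝓘(ℂ, Cn r × Cn n) 𝓘(ℂ, Cn n) ω A (w₀, z₀) :=
    (contMDiffAt_of_mem_maximalAtlas (IsManifold.subset_maximalAtlas he') hx₀').comp (w₀, z₀) h2
  have hA : AnalyticAt ℂ A (w₀, z₀) := (contMDiffAt_iff_contDiffAt.1 h3).analyticAt
  -- the coefficient of `s`
  have h4' : AnalyticAt ℂ (s.coeff e' ∘ e'.symm) (A (w₀, z₀)) := s.analyticAt_coeff he' hx₀'
  have h4 : AnalyticAt ℂ (fun p => (s.coeff e' ∘ e'.symm) (A p)) (w₀, z₀) := h4'.comp hA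
  -- the Jacobian
  let L := (ContinuousLinearMap.compL ℂ (Cn n) (Cn r × Cn n) (Cn n)).flip
    (ContinuousLinearMap.inr ℂ (Cn r) (Cn n))
  have h5 : AnalyticAt ℂ (fun p => (L (fderiv ℂ A p)).det) (w₀, z₀) :=
    (analyticAt_det _).comp ((L.analyticAt _).comp hA.fderiv)
  have hev : ∀ᶠ p in 𝓝 (w₀, z₀), p.2 ∈ e.target ∧ T.act p.1 (e.symm p.2) ∈ e'.source ∧
      DifferentiableAt ℂ A p := by
    have ha : ∀ᶠ p : Cn r × Cn n in 𝓝 (w₀, z₀), p.2 ∈ e.target :=
      continuous_snd.continuousAt.preimage_mem_nhds (e.open_target.mem_nhds hz₀)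
    have hb : ∀ᶠ p : Cn r × Cn n in 𝓝 (w₀, z₀), T.act p.1 (e.symm p.2) ∈ e'.source :=
      h2.continuousAt.preimage_mem_nhds (e'.open_source.mem_nhds hx₀')
    have hc : ∀ᶠ p : Cn r × Cn n in 𝓝 (w₀, z₀), DifferentiableAt ℂ A p :=
      hA.eventually_analyticAt.mono fun p hp => hp.differentiableAt
    filter_upwards [ha, hb, hc] with p h1 h2 h3 using ⟨h1, h2, h3⟩
  have hjac : ∀ᶠ p in 𝓝 (w₀, z₀), jac (T.act p.1) e e' (e.symm p.2) = (L (fderiv ℂ A p)).det := by
    filter_upwards [hev] with p hp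
    have h6 : e (e.symm p.2) = p.2 := e.right_inv hp.1
    unfold jac
    rw [h6]
    congr 1
    have h7 : HasFDerivAt (fun z : Cn n => (p.1, z)) (ContinuousLinearMap.inr ℂ (Cn r) (Cn n)) p.2 :=
      hasFDerivAt_prodMk_right p.1 p.2
    have h8 : HasFDerivAt A (fderiv ℂ A p) (p.1, p.2) := hp.2.2.hasFDerivAt
    exact (h8.comp p.2 h7).fderiv
  have hne : (L (fderiv ℂ A (w₀, z₀))).det ^ m ≠ 0 := by
    rw [← hjac.self_of_nhds]
    exact pow_ne_zero _ ((T.locBihol w₀).ne_zero e he e' he' x₀ hx₀s hx₀')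
  have h9 := h4.mul ((h5.pow m).inv hne)
  refine h9.congr ?_
  filter_upwards [hev, hjac] with p hp hj
  have h10 := T.pull_coeff p.1 s he he' (e.map_target hp.1) hp.2.1
  rw [h10, hj]
  simp only [Pi.mul_apply, Pi.inv_apply, Pi.pow_apply, Function.comp_apply, A,
    e'.left_inv hp.2.1]

section Growth

variable [CompactSpace F] [T2Space F] [MeasurableSpace F] [BorelSpace F] (P : Part n F)

omit [IsManifold 𝓘(ℂ, Cn n) ω F] [CompactSpace F] [T2Space F] in
theorem nrm_congr {s t : AntiSection (Cn n) F m} (h : s.Eqv t) (x : F) : P.nrm s x = P.nrm t x := by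
  unfold Part.nrm
  rw [h _ (P.r_mem x) x (P.mem_r_source x)]

theorem exists_bound_on (s : AntiSection (Cn n) F m) {Q : Set (Cn r)} (hQ : IsCompact Q) :
    ∃ B : ℝ, ∀ w ∈ Q, ∀ x, P.nrm (T.pull w s) x ≤ B := by
  have h1 : ∀ i, ∃ B : ℝ, ∀ p ∈ Q ×ˢ P.K i, ‖(T.pull p.1 s).coeff (P.c i) p.2‖ ≤ B := by
    intro i
    refine (hQ.prod (P.K_compact i)).exists_bound_of_continuousOn ?_
    intro p hp
    have hx : p.2 ∈ (P.c i).source := P.K_sub i hp.2
    have ha := T.analyticAt_pull s (P.mem i) p.1 ((P.c i).map_source hx)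
    have hb : ContinuousAt (fun q : Cn r × F => (q.1, P.c i q.2)) p :=
      continuous_fst.continuousAt.prodMk
        (((P.c i).continuousAt hx).comp continuous_snd.continuousAt)
    have hc : ContinuousAt (fun q : Cn r × F => (T.pull q.1 s).coeff (P.c i)
        ((P.c i).symm (P.c i q.2))) p :=
      ContinuousAt.comp (f := fun q : Cn r × F => (q.1, P.c i q.2))
        (g := fun p : Cn r × Cn n => (T.pull p.1 s).coeff (P.c i) ((P.c i).symm p.2))
        ha.continuousAt hb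
    refine (hc.congr ?_).continuousWithinAt
    have hd : ∀ᶠ q : Cn r × F in 𝓝 p, q.2 ∈ (P.c i).source :=
      continuous_snd.continuousAt.preimage_mem_nhds ((P.c i).open_source.mem_nhds hx)
    filter_upwards [hd] with q hq
    rw [(P.c i).left_inv hq]
  choose B hB using h1
  refine ⟨∑ i, |B i|, fun w hw x => ?_⟩
  have h2 : P.nrm (T.pull w s) x ≤ B (P.idx x) :=
    hB _ (w, x) ⟨hw, P.A_sub _ (P.mem_idx x)⟩
  exact h2.trans ((le_abs_self _).trans
    (Finset.single_le_sum (f := fun i => |B i|) (fun _ _ => abs_nonneg _) (Finset.mem_univ _)))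

theorem growth_one (w : Cn r) (m : ℕ) : ∃ C : ℝ, 1 ≤ C ∧ ∀ (t : AntiSection (Cn n) F m) (B : ℝ),
    (∀ x, P.nrm t x ≤ B) → ∀ x, P.nrm (T.pull w t) x ≤ C * B := by
  have : IsManifold 𝓘(ℂ, Cn n) 1 F := IsManifold.of_le (m := 1) (n := ω) le_top
  obtain ⟨C, hC1, hC⟩ := P.J_bound ((T.contMDiff_act (-w)).of_le le_top)
  have hs : 1 ≤ √C := Real.one_le_sqrt.2 hC1
  refine ⟨√C ^ m, one_le_pow₀ hs, fun t B hB x => ?_⟩
  have h1 := T.pull_coeff w t (P.r_mem x) (P.r_mem (T.act w x)) (P.mem_r_source x)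
    (P.mem_r_source (T.act w x))
  have h2 : jac (T.act (-w)) (P.r (T.act w x)) (P.r x) (T.act w x)
      * jac (T.act w) (P.r x) (P.r (T.act w x)) x = 1 := by
    have h3 := jac_comp (g := T.act w) (h := T.act (-w)) (T.contMDiff_act w x)
      (T.contMDiff_act (-w) _) (P.r_mem x) (P.r_mem (T.act w x)) (P.r_mem x)
      (P.mem_r_source x) (P.mem_r_source (T.act w x))
      (by rw [T.act_neg_act]; exact P.mem_r_source x)
    have h4 : T.act (-w) ∘ T.act w = id := by funext y; exact T.act_neg_act w y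
    rw [h4, jac_id_self (P.mem_r_source x)] at h3
    exact h3.symm
  have h5 : ‖jac (T.act (-w)) (P.r (T.act w x)) (P.r x) (T.act w x)‖ ≤ √C := by
    have h6 := hC (T.act w x)
    rw [P.J_eq, T.act_neg_act] at h6
    exact Real.le_sqrt_of_sq_le h6
  have h7 : (jac (T.act w) (P.r x) (P.r (T.act w x)) x)⁻¹
      = jac (T.act (-w)) (P.r (T.act w x)) (P.r x) (T.act w x) :=
    (eq_inv_of_mul_eq_one_left h2).symm
  have h8 : P.nrm (T.pull w t) x = P.nrm t (T.act w x)
      * ‖jac (T.act (-w)) (P.r (T.act w x)) (P.r x) (T.act w x)‖ ^ m := by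
    unfold Part.nrm
    rw [h1, norm_mul, ← inv_pow, h7, norm_pow]
  rw [h8, mul_comm]
  have h9 := hB (T.act w x)
  have h10 : 0 ≤ P.nrm t (T.act w x) := P.nrm_nonneg _ _
  gcongr

theorem growth_iter (w : Cn r) (m : ℕ) : ∃ C : ℝ, 1 ≤ C ∧ ∀ (N : ℕ)
    (t : AntiSection (Cn n) F m) (B : ℝ),
    (∀ x, P.nrm t x ≤ B) → ∀ x, P.nrm (T.pull (N • w) t) x ≤ C ^ N * B := by
  obtain ⟨C, hC1, hC⟩ := T.growth_one P w m
  refine ⟨C, hC1, fun N => ?_⟩
  induction N with
  | zero =>
    intro t B hB x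
    rw [zero_smul, nrm_congr P (T.pull_zero_eqv t)]
    simpa using hB x
  | succ N ih =>
    intro t B hB x
    have h1 : (T.pull w (T.pull (N • w) t)).Eqv (T.pull ((N + 1) • w) t) := by
      rw [succ_nsmul]; exact T.pull_pull w (N • w) t
    rw [← nrm_congr P h1, pow_succ']
    have h2 := hC (T.pull (N • w) t) (C ^ N * B) (ih t B hB) x
    rwa [← mul_assoc] at h2

theorem act_single_period (j : Fin r) (u : ℂ) (k : ℤ) :
    T.act (Pi.single j (u + 2 * Real.pi * Complex.I * k)) = T.act (Pi.single j u) := by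
  funext x
  have h1 : (Pi.single j (u + 2 * Real.pi * Complex.I * k) : Cn r)
      = Pi.single j u + fun i => 2 * Real.pi * Complex.I * ((Pi.single j k : Fin r → ℤ) i : ℂ) := by
    funext i
    by_cases h : i = j
    · subst h; simp
    · simp [h]
  rw [h1, T.act_add, T.act_period]

theorem pull_single_period (j : Fin r) (u : ℂ) (k : ℤ) (s : AntiSection (Cn n) F m) :
    (T.pull (Pi.single j (u + 2 * Real.pi * Complex.I * k)) s).Eqv (T.pull (Pi.single j u) s) := by
  intro e he x hx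
  have h1 := chart_mem_atlas (Cn n) (T.act (Pi.single j u) x)
  have h2 := mem_chart_source (Cn n) (T.act (Pi.single j u) x)
  have h0 := T.act_single_period j u k
  rw [T.pull_coeff _ _ he h1 hx h2, T.pull_coeff _ _ he h1 hx (by rw [h0]; exact h2), h0]

/-- exponential growth along each direction -/
theorem growth (j : Fin r) (m : ℕ) : ∃ K : ℕ, ∀ s : AntiSection (Cn n) F m, ∃ B : ℝ, ∀ (u : ℂ) (x : F),
    P.nrm (T.pull (Pi.single j u) s) x ≤ B * Real.exp (K * |u.re|) := by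
  obtain ⟨C₁, h1, hC₁⟩ := T.growth_iter P (Pi.single j 1) m
  obtain ⟨C₂, h2, hC₂⟩ := T.growth_iter P (Pi.single j (-1)) m
  obtain ⟨K, hK⟩ := exists_nat_ge (max C₁ C₂)
  have hKe : (max C₁ C₂) ≤ Real.exp K := hK.trans ((by linarith : (K : ℝ) ≤ K + 1).trans
    (Real.add_one_le_exp _))
  refine ⟨K, fun s => ?_⟩
  have hQc : IsCompact ((fun v : ℂ => (Pi.single j v : Cn r)) ''
      (Icc (-1 : ℝ) 1 ×ℂ Icc (0 : ℝ) (2 * Real.pi))) := by
    refine IsCompact.image (isCompact_Icc.reProdIm isCompact_Icc) ?_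
    exact continuous_single (A := fun _ : Fin r => ℂ) j
  obtain ⟨B, hB⟩ := T.exists_bound_on P s hQc
  refine ⟨|B|, fun u x => ?_⟩
  -- reduce the imaginary part
  set k : ℤ := ⌊u.im / (2 * Real.pi)⌋ with hk
  set u' : ℂ := u - 2 * Real.pi * Complex.I * k with hu'
  have hpi : 0 < 2 * Real.pi := by positivity
  have hre : u'.re = u.re := by simp [hu']
  have him : u'.im = u.im - 2 * Real.pi * k := by simp [hu']
  have him0 : 0 ≤ u'.im := by
    rw [him]
    have := Int.floor_le (u.im / (2 * Real.pi))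
    rw [← hk, le_div_iff₀ hpi] at this
    linarith
  have him1 : u'.im ≤ 2 * Real.pi := by
    rw [him]
    have := (Int.lt_floor_add_one (u.im / (2 * Real.pi))).le
    rw [← hk, div_le_iff₀ hpi] at this
    linarith
  have hper : P.nrm (T.pull (Pi.single j u) s) x = P.nrm (T.pull (Pi.single j u') s) x := by
    have h3 := T.pull_single_period j u' k s
    have h4 : u' + 2 * Real.pi * Complex.I * k = u := by rw [hu']; ring
    rw [h4] at h3
    exact nrm_congr P h3 x
  rw [hper]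
  set N : ℕ := ⌊|u.re|⌋₊ with hN
  have hN1 : (N : ℝ) ≤ |u.re| := Nat.floor_le (abs_nonneg _)
  have hN2 : |u.re| < N + 1 := Nat.lt_floor_add_one _
  have hexp : (max C₁ C₂) ^ N ≤ Real.exp (K * |u.re|) := by
    calc (max C₁ C₂) ^ N ≤ (Real.exp K) ^ N := by
          have : 0 ≤ max C₁ C₂ := le_trans (by linarith) (le_max_left C₁ C₂)
          gcongr
      _ = Real.exp (K * N) := by rw [← Real.exp_nat_mul]; ring_nf
      _ ≤ Real.exp (K * |u.re|) := by gcongr
  have key : ∀ (σ : ℝ) (C : ℝ), 1 ≤ C → C ≤ max C₁ C₂ → |u.re - σ * N| ≤ 1 →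
      (∀ (N : ℕ) (t : AntiSection (Cn n) F m) (B : ℝ), (∀ x, P.nrm t x ≤ B) →
        ∀ x, P.nrm (T.pull (N • (Pi.single j (σ : ℂ) : Cn r)) t) x ≤ C ^ N * B) →
      P.nrm (T.pull (Pi.single j u') s) x ≤ |B| * Real.exp (K * |u.re|) := by
    intro σ C hC1 hCm hσ hit
    set v : ℂ := u' - σ * N with hv
    have hvQ : (Pi.single j v : Cn r) ∈ ((fun v : ℂ => (Pi.single j v : Cn r)) ''
        (Icc (-1 : ℝ) 1 ×ℂ Icc (0 : ℝ) (2 * Real.pi))) := by
      refine ⟨v, ?_, rfl⟩
      rw [Complex.mem_reProdIm]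
      have h3 : v.re = u.re - σ * N := by simp [hv, hre]
      have h4 : v.im = u'.im := by simp [hv]
      rw [h3, h4]
      exact ⟨abs_le.1 hσ, him0, him1⟩
    have h5 : (Pi.single j u' : Cn r) = Pi.single j v + N • (Pi.single j (σ : ℂ) : Cn r) := by
      funext i
      by_cases h : i = j
      · subst h; simp [hv]; ring
      · simp [h]
    have h6 : (T.pull (N • (Pi.single j (σ : ℂ) : Cn r)) (T.pull (Pi.single j v) s)).Eqv
        (T.pull (Pi.single j u') s) := by
      rw [h5]; exact T.pull_pull _ _ s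
    rw [← nrm_congr P h6]
    have h7 : ∀ x, P.nrm (T.pull (Pi.single j v) s) x ≤ |B| := fun x =>
      (hB _ hvQ x).trans (le_abs_self B)
    refine (hit N _ |B| h7 x).trans ?_
    rw [mul_comm]
    have h8 : C ^ N ≤ (max C₁ C₂) ^ N := by gcongr
    have h9 := abs_nonneg B
    have h10 := h8.trans hexp
    gcongr
  rcases le_total 0 u.re with hpos | hneg
  · refine key 1 C₁ h1 (le_max_left _ _) ?_ ?_
    · rw [abs_of_nonneg hpos] at hN1 hN2
      rw [abs_le]; constructor <;> linarith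
    · simpa using hC₁
  · refine key (-1) C₂ h2 (le_max_right _ _) ?_ ?_
    · rw [abs_of_nonpos hneg] at hN1 hN2
      rw [abs_le]; constructor <;> linarith
    · simpa using hC₂

end Growth

end TorusAction

end Vale.Agent.P299
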